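import Vale.Agent.P287.Odd.Form

/-!
The Lagrangian subspaces of `(Fin 4 → Q)` and the parity statement.
-/

namespace Vale.Agent.P287.Odd

open Matrix Module

section dims

variable {k : Type*} [Field k] {V W : Type*} [AddCommGroup V] [Module k V] [AddCommGroup W]
  [Module k W]

lemma finrank_map_add (f : V →ₗ[k] W) (p : Submodule k V) [Module.Finite k p] :
    finrank k (p.map f) + finrank k (p ⊓ LinearMap.ker f : Submodule k V) = finrank k p := by
  have h1 := (f.domRestrict p).finrank_range_add_finrank_ker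
  rw [LinearMap.range_domRestrict] at h1
  have h2 : (LinearMap.ker (f.domRestrict p)).map p.subtype = p ⊓ LinearMap.ker f := by
    ext x
    rw [Submodule.mem_map, Submodule.mem_inf]
    constructor
    · rintro ⟨y, hy, rfl⟩
      exact ⟨y.2, hy⟩
    · rintro ⟨hx, hy⟩
      exact ⟨⟨x, hx⟩, hy, rfl⟩
  have h3 : finrank k ((LinearMap.ker (f.domRestrict p)).map p.subtype) =
      finrank k (LinearMap.ker (f.domRestrict p)) :=
    ((LinearMap.ker (f.domRestrict p)).equivMapOfInjective _ p.injective_subtype).finrank_eq.symm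
  rw [← h2, h3, h1]

/-- The submodule of the families with values in `p i`. -/
def piEquiv {n : ℕ} (p : Fin n → Submodule k V) :
    (Submodule.pi Set.univ p : Submodule k (Fin n → V)) ≃ₗ[k] (∀ i, p i) where
  toFun w i := ⟨w.1 i, w.2 i (Set.mem_univ i)⟩
  map_add' _ _ := rfl
  map_smul' _ _ := rfl
  invFun u := ⟨fun i => u i, fun i _ => (u i).2⟩
  left_inv _ := rfl
  right_inv _ := rfl

instance finite_pi_sub {n : ℕ} (p : Fin n → Submodule k V) [∀ i, Module.Finite k (p i)] :
    Module.Finite k (Submodule.pi Set.univ p : Submodule k (Fin n → V)) :=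
  Module.Finite.equiv (piEquiv p).symm

lemma finrank_pi_sub {n : ℕ} (p : Fin n → Submodule k V) [∀ i, Module.Finite k (p i)] :
    finrank k (Submodule.pi Set.univ p : Submodule k (Fin n → V)) = ∑ i, finrank k (p i) := by
  rw [(piEquiv p).finrank_eq, Module.finrank_pi_fintype]

end dims

section lag

variable {k : Type} [Field k] {Q : Type} [CommRing Q] [Algebra k Q] [Module.Finite k Q]

/-- The vectors with entries in `I` which satisfy the equations of the isotropic module. -/
noncomputable def LI (A : Matrix (Fin 3) (Fin 3) Q) (ν : Fin 3 → Q) (I : Ideal Q) :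
    Submodule k (Fin 4 → Q) where
  carrier := {v | InM A ν v ∧ ∀ i, v i ∈ I}
  add_mem' := by
    rintro v w ⟨⟨h1, h2⟩, h3⟩ ⟨⟨h4, h5⟩, h6⟩
    refine ⟨⟨?_, ?_⟩, fun i => I.add_mem (h3 i) (h6 i)⟩
    · rw [av_add, add_dotProduct, h1, h4, add_zero]
    · rw [av_add, map_add, LinearMap.add_apply, h2, h5, Pi.add_apply, add_smul]
  zero_mem' := by
    refine ⟨⟨?_, ?_⟩, fun i => I.zero_mem⟩
    · rw [av_zero, zero_dotProduct]
    · rw [av_zero, map_zero, LinearMap.zero_apply, Pi.zero_apply, zero_smul]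
  smul_mem' := by
    rintro c v ⟨⟨h1, h2⟩, h3⟩
    rw [← algebraMap_smul Q c v]
    refine ⟨⟨?_, ?_⟩, fun i => I.mul_mem_left _ (h3 i)⟩
    · rw [av_smul, smul_dotProduct, h1, smul_zero]
    · rw [av_smul, map_smul, LinearMap.smul_apply, h2, Pi.smul_apply, smul_eq_mul, mul_smul]

/-- The scalar product with `ν`. -/
noncomputable def dotL (k : Type) [Field k] {Q : Type} [CommRing Q] [Algebra k Q]
    (ν : Fin 3 → Q) : (Fin 3 → Q) →ₗ[k] Q where
  toFun a := a ⬝ᵥ ν
  map_add' _ _ := add_dotProduct _ _ _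
  map_smul' _ _ := smul_dotProduct _ _ _

/-- The extension of `a` to a vector of the isotropic module. -/
noncomputable def extL (k : Type) [Field k] {Q : Type} [CommRing Q] [Algebra k Q]
    (z l : Fin 3 → Q) : (Fin 3 → Q) →ₗ[k] (Fin 4 → Q) where
  toFun a := Fin.cons (z ⬝ᵥ crossProduct a l) a
  map_add' a b := by
    funext i
    refine Fin.cases ?_ (fun j => rfl) i
    change z ⬝ᵥ crossProduct (a + b) l = z ⬝ᵥ crossProduct a l + z ⬝ᵥ crossProduct b l
    rw [map_add, LinearMap.add_apply, dotProduct_add]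
  map_smul' c a := by
    funext i
    refine Fin.cases ?_ (fun j => rfl) i
    change z ⬝ᵥ crossProduct (c • a) l = c • (z ⬝ᵥ crossProduct a l)
    rw [← algebraMap_smul Q c a, map_smul, LinearMap.smul_apply, dotProduct_smul,
      algebraMap_smul]

omit [Module.Finite k Q] in
lemma extL_inj (z l : Fin 3 → Q) : Function.Injective (extL k z l) := by
  intro a b h
  funext j
  exact congrFun h j.succ

theorem finrank_LI {A : Matrix (Fin 3) (Fin 3) Q} {ν z : Fin 3 → Q} (hz : z ⬝ᵥ ν = 1)
    (hν : ν ⬝ᵥ (A *ᵥ ν) = 0) (I : Ideal Q) :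
    finrank k (LI A ν I : Submodule k (Fin 4 → Q)) = 2 * finrank k (I.restrictScalars k) := by
  set W : Submodule k (Fin 3 → Q) := Submodule.pi Set.univ fun _ => I.restrictScalars k with hW
  have hWm : ∀ a, a ∈ W ↔ ∀ i, a i ∈ I := by
    intro a
    rw [hW, Submodule.mem_pi]
    simp
  have h1 : W.map (dotL k ν) = I.restrictScalars k := by
    apply le_antisymm
    · rintro _ ⟨a, ha, rfl⟩
      have ha' := (hWm a).mp ha
      change a ⬝ᵥ ν ∈ I
      exact I.sum_mem fun i _ => I.mul_mem_right _ (ha' i)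
    · intro r hr
      refine ⟨r • z, (hWm _).mpr fun i => I.mul_mem_right _ hr, ?_⟩
      change (r • z) ⬝ᵥ ν = r
      rw [smul_dotProduct, hz, smul_eq_mul, mul_one]
  have h2 := finrank_map_add (dotL k ν) W
  have h3 : finrank k W = 3 * finrank k (I.restrictScalars k) := by
    rw [hW, finrank_pi_sub]
    simp
  have h4 : (W ⊓ LinearMap.ker (dotL k ν)).map (extL k z (A *ᵥ ν)) = LI A ν I := by
    ext v
    constructor
    · rintro ⟨a, ⟨ha1, ha2⟩, rfl⟩
      have ha1' := (hWm a).mp ha1
      have ha2' : a ⬝ᵥ ν = 0 := ha2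
      refine ⟨InM_cons hz hν ha2', fun i => ?_⟩
      refine Fin.cases ?_ (fun j => ha1' j) i
      change z ⬝ᵥ crossProduct a (A *ᵥ ν) ∈ I
      rw [triple]
      have h5 : ∀ j, crossProduct z a j ∈ I := by
        intro j
        fin_cases j
        · change crossProduct z a 0 ∈ I
          rw [cr0]
          exact I.sub_mem (I.mul_mem_left _ (ha1' _)) (I.mul_mem_left _ (ha1' _))
        · change crossProduct z a 1 ∈ I
          rw [cr1]
          exact I.sub_mem (I.mul_mem_left _ (ha1' _)) (I.mul_mem_left _ (ha1' _))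
        · change crossProduct z a 2 ∈ I
          rw [cr2]
          exact I.sub_mem (I.mul_mem_left _ (ha1' _)) (I.mul_mem_left _ (ha1' _))
      exact I.sum_mem fun j _ => I.mul_mem_right _ (h5 j)
    · rintro ⟨h5, h6⟩
      refine ⟨av v, ⟨(hWm _).mpr fun i => h6 _, h5.1⟩, ?_⟩
      funext i
      refine Fin.cases ?_ (fun j => rfl) i
      change z ⬝ᵥ crossProduct (av v) (A *ᵥ ν) = v 0
      rw [h5.2, dotProduct_smul, hz, smul_eq_mul, mul_one]
  have h5 : finrank k ((W ⊓ LinearMap.ker (dotL k ν)).map (extL k z (A *ᵥ ν))) =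
      finrank k (W ⊓ LinearMap.ker (dotL k ν) : Submodule k (Fin 3 → Q)) :=
    ((W ⊓ LinearMap.ker (dotL k ν)).equivMapOfInjective _ (extL_inj _ _)).finrank_eq.symm
  rw [h1] at h2
  rw [← h4, h5]
  omega

/-- The annihilator of `P`. -/
noncomputable def annI (P : Q) : Ideal Q := LinearMap.ker (LinearMap.mulLeft Q P)

lemma mem_annI {P u : Q} : u ∈ annI P ↔ P * u = 0 := by
  rw [annI, LinearMap.mem_ker, LinearMap.mulLeft_apply]

theorem finrank_annI {P : Q} (hP : ∀ u, P * u = 0 → ∃ w, u = P * w) (hPP : P * P = 0) :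
    2 * finrank k ((annI P).restrictScalars k) = finrank k Q := by
  have h1 := (LinearMap.mulLeft k P).finrank_range_add_finrank_ker
  have h2 : LinearMap.ker (LinearMap.mulLeft k P) = (annI P).restrictScalars k := by
    ext u
    rw [LinearMap.mem_ker, LinearMap.mulLeft_apply, Submodule.restrictScalars_mem, mem_annI]
  have h3 : LinearMap.range (LinearMap.mulLeft k P) = (annI P).restrictScalars k := by
    ext u
    rw [LinearMap.mem_range, Submodule.restrictScalars_mem, mem_annI]
    constructor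
    · rintro ⟨w, rfl⟩
      rw [LinearMap.mulLeft_apply, ← mul_assoc, hPP, zero_mul]
    · intro hu
      obtain ⟨w, hw⟩ := hP u hu
      exact ⟨w, hw.symm⟩
  rw [h2, h3] at h1
  omega

/-- The vectors killed by `P`. -/
noncomputable def L1 (k : Type) [Field k] {Q : Type} [CommRing Q] [Algebra k Q] (P : Q) :
    Submodule k (Fin 4 → Q) := Submodule.pi Set.univ fun _ => (annI P).restrictScalars k

omit [Module.Finite k Q] in
lemma mem_L1 {P : Q} {v : Fin 4 → Q} : v ∈ L1 k P ↔ ∀ i, P * v i = 0 := by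
  rw [L1, Submodule.mem_pi]
  simp [mem_annI]

theorem parity (h2 : (2 : k) ≠ 0) (lam : Q →ₗ[k] k)
    (hlam : ∀ u, (∀ r, lam (r * u) = 0) → u = 0) {f f' : Q} (hf : f * f' = 1)
    {A : Matrix (Fin 3) (Fin 3) Q} (hA : A.IsSymm) (hdet : A.det = -f) {ν z : Fin 3 → Q}
    (hz : z ⬝ᵥ ν = 1) (hν : ν ⬝ᵥ (A *ᵥ ν) = 0) {P : Q} (hP : ∀ u, P * u = 0 → ∃ w, u = P * w)
    (hPP : P * P = 0) (L₃ : Submodule k (Fin 4 → Q))
    (h33 : ∀ v ∈ L₃, ∀ w ∈ L₃, lam (f' * Ph A v w) = 0) (h3 : 2 * finrank k Q ≤ finrank k L₃) :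
    finrank k L₃ = 2 * finrank k Q ∧ Even (finrank k (LI A ν ⊤ ⊓ L₃ : Submodule k (Fin 4 → Q)) +
      finrank k (L1 k P ⊓ L₃ : Submodule k (Fin 4 → Q))) := by
  have hU : finrank k (Fin 4 → Q) = 4 * finrank k Q := by
    rw [Module.finrank_pi_fintype]
    simp
  have hs := bet_symm lam f' hA
  have hnd := bet_nondeg lam hlam hf hdet
  -- isotropic subspaces have at most half the dimension
  have hle : ∀ L : Submodule k (Fin 4 → Q), (∀ x ∈ L, ∀ y ∈ L, bet lam f' A x y = 0) →
      2 * finrank k L ≤ finrank k (Fin 4 → Q) := by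
    intro L hL
    set T : Submodule k (Fin 4 → Q) :=
      { carrier := {x | ∀ y ∈ L, bet lam f' A x y = 0}
        add_mem' := fun {a b} ha hb y hy => by
          rw [map_add, LinearMap.add_apply, ha y hy, hb y hy, add_zero]
        zero_mem' := fun y _ => by rw [map_zero, LinearMap.zero_apply]
        smul_mem' := fun c a ha y hy => by
          rw [map_smul, LinearMap.smul_apply, ha y hy, smul_zero] } with hT
    have h4 := finrank_orth (bet lam f' A) hnd L T (fun x => Iff.rfl)
    have h5 : L ≤ T := fun x hx y hy => hL x hx y hy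
    have h6 := Submodule.finrank_mono h5
    omega
  have e3 : finrank k L₃ = 2 * finrank k Q := by
    have := hle L₃ h33
    omega
  refine ⟨e3, ?_⟩
  have hann := finrank_annI (k := k) hP hPP
  have e1 : finrank k (L1 k P) = 4 * finrank k ((annI P).restrictScalars k) := by
    rw [L1, finrank_pi_sub]
    simp
  have e2 : finrank k (LI A ν ⊤ : Submodule k (Fin 4 → Q)) = 2 * finrank k Q := by
    rw [finrank_LI hz hν]
    congr 1
    exact finrank_top k Q
  have h11 : ∀ x ∈ L1 k P, ∀ y ∈ L1 k P, bet lam f' A x y = 0 := by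
    intro x hx y hy
    rw [mem_L1] at hx
    have h4 : ∃ x', x = P • x' := by
      choose x' hx' using fun i => hP (x i) (hx i)
      exact ⟨x', funext hx'⟩
    obtain ⟨x', rfl⟩ := h4
    rw [mem_L1] at hy
    have h5 : P • y = 0 := funext hy
    have h6 : Ph A (P • x') y = 0 := by
      rw [Ph_smul_left, ← Ph_smul_right, h5]
      simp [Ph, av_zero]
    rw [bet_apply, h6, mul_zero, map_zero]
  have h22 : ∀ x ∈ (LI A ν ⊤ : Submodule k (Fin 4 → Q)), ∀ y ∈ (LI A ν ⊤ :
      Submodule k (Fin 4 → Q)), bet lam f' A x y = 0 := by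
    intro x hx y hy
    rw [bet_apply, Ph_eq_zero hA hz hν hx.1 hy.1, mul_zero, map_zero]
  have h12 : (L1 k P ⊓ LI A ν ⊤ : Submodule k (Fin 4 → Q)) = LI A ν (annI P) := by
    ext v
    rw [Submodule.mem_inf, mem_L1]
    constructor
    · rintro ⟨h4, h5⟩
      exact ⟨h5.1, fun i => mem_annI.mpr (h4 i)⟩
    · rintro ⟨h4, h5⟩
      exact ⟨fun i => mem_annI.mp (h5 i), h4, fun i => trivial⟩
  have e12 := finrank_LI (k := k) hz hν (annI P)
  have hmain := lagrangian_triple h2 (bet lam f' A) hs hnd (L1 k P) (LI A ν ⊤) L₃ h11 h22 h33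
    (by omega) (by omega) (by omega)
  rw [h12] at hmain
  obtain ⟨r, hr⟩ := hmain
  refine ⟨r - 3 * finrank k ((annI P).restrictScalars k), ?_⟩
  omega

end lag

end Vale.Agent.P287.Odd
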