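import Vale.Agent.P287.Odd.Deg
import Vale.Agent.P287.Odd.Lags
import Vale.Agent.P287.H908.Frob
import Vale.Agent.P287.H946.CodimC

/-!
The Mumford block: the parity of `dim (X ∩ M')` in terms of `dim X`.
-/

namespace Vale.Agent.P287.Odd

open Polynomial Matrix Module

section maps

variable {R S : Type} [CommRing R] [CommRing S] (φ : R →+* S)

lemma map_dot (v w : Fin 3 → R) : φ (v ⬝ᵥ w) = (fun i => φ (v i)) ⬝ᵥ (fun i => φ (w i)) := by
  simp only [dotProduct, map_sum, map_mul]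

lemma map_mulv (A : Matrix (Fin 3) (Fin 3) R) (v : Fin 3 → R) :
    (fun i => φ ((A *ᵥ v) i)) = (A.map φ) *ᵥ (fun i => φ (v i)) := by
  funext i
  simp only [mulVec, dotProduct, map_sum, map_mul, map_apply]

lemma map_cross (v w : Fin 3 → R) :
    (fun i => φ (crossProduct v w i)) = crossProduct (fun i => φ (v i)) (fun i => φ (w i)) := by
  funext i
  fin_cases i
  · change φ (crossProduct v w 0) = crossProduct (fun i => φ (v i)) (fun i => φ (w i)) 0
    rw [cr0, cr0, map_sub, map_mul, map_mul]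
  · change φ (crossProduct v w 1) = crossProduct (fun i => φ (v i)) (fun i => φ (w i)) 1
    rw [cr1, cr1, map_sub, map_mul, map_mul]
  · change φ (crossProduct v w 2) = crossProduct (fun i => φ (v i)) (fun i => φ (w i)) 2
    rw [cr2, cr2, map_sub, map_mul, map_mul]

lemma map_adj (A : Matrix (Fin 3) (Fin 3) R) : (A.map φ).adjugate = A.adjugate.map φ := by
  have h := RingHom.map_adjugate φ A
  rw [RingHom.mapMatrix_apply, RingHom.mapMatrix_apply] at h
  exact h.symm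

lemma map_det' (A : Matrix (Fin 3) (Fin 3) R) : (A.map φ).det = φ A.det := by
  have h := RingHom.map_det φ A
  rw [RingHom.mapMatrix_apply] at h
  exact h.symm

lemma map_Ph (A : Matrix (Fin 3) (Fin 3) R) (v w : Fin 4 → R) :
    Ph (A.map φ) (fun i => φ (v i)) (fun i => φ (w i)) = φ (Ph A v w) := by
  rw [Ph, Ph, map_add, map_mul, map_dot, map_mulv, map_adj]
  rfl

lemma map_InM {A : Matrix (Fin 3) (Fin 3) R} {ν : Fin 3 → R} {v : Fin 4 → R} :
    InM (A.map φ) (fun i => φ (ν i)) (fun i => φ (v i)) ↔ φ (av v ⬝ᵥ ν) = 0 ∧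
      ∀ i, φ ((crossProduct (av v) (A *ᵥ ν) - v 0 • ν) i) = 0 := by
  have e1 : av (fun i => φ (v i)) = fun i => φ (av v i) := rfl
  rw [InM, e1, ← map_dot, ← map_mulv, ← map_cross, funext_iff]
  refine and_congr_right fun _ => forall_congr' fun i => ?_
  rw [Pi.sub_apply, map_sub, sub_eq_zero, Pi.smul_apply, Pi.smul_apply, smul_eq_mul, smul_eq_mul,
    map_mul]

end maps

section

variable {k : Type} [Field k]

lemma wt4_le (i : Fin 4) : wt4 i ≤ 3 := by
  fin_cases i <;> decide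

lemma wt4_succ (j : Fin 3) : wt4 j.succ = 1 := by
  fin_cases j <;> rfl

lemma Yd_wd {n d : ℕ} {Y : Submodule k[X][X] (Fin 4 → k[X][X])} {v : Fin 4 → k[X][X]}
    (hv : v ∈ Yd n d Y) : Wd (d + 3) (v 0) ∧ ∀ j, Wd (d + 1) (av v j) := by
  rw [mem_Yd] at hv
  refine ⟨(hv.2 0).1, fun j => ?_⟩
  have h1 := (hv.2 j.succ).1
  rw [wt4_succ] at h1
  exact h1

lemma Yd_wd' {n d : ℕ} {Y : Submodule k[X][X] (Fin 4 → k[X][X])} {v : Fin 4 → k[X][X]}
    (hv : v ∈ Yd n d Y) (i : Fin 4) : Wd (d + 3) (v i) := by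
  rw [mem_Yd] at hv
  exact Wd_mono (hv.2 i).1 (by have := wt4_le i; omega)

lemma J_sat {m : ℕ} {g f : k[X][X]} {J : Ideal k[X][X]} (hC : Curve m g f)
    (hJ : Half m g f J) (e : ℕ) (c : k[X][X]) (h : (C X : k[X][X]) ^ e * c ∈ J) : c ∈ J := by
  obtain ⟨α, β, γ, h1⟩ := hC.line
  induction e with
  | zero => rwa [pow_zero, one_mul] at h
  | succ e ih =>
    apply ih
    have h2 : (C X : k[X][X]) ^ e * c = (α * ((C X : k[X][X]) ^ e * c)) * f +
        (β * ((C X : k[X][X]) ^ e * c)) * g + γ * ((C X : k[X][X]) ^ (e + 1) * c) := by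
      rw [pow_succ]
      linear_combination (-((C X : k[X][X]) ^ e * c)) * h1
    rw [h2]
    exact J.add_mem (J.add_mem (J.mul_mem_left _ hJ.f_mem) (J.mul_mem_left _ hJ.g_mem))
      (J.mul_mem_left _ h)

lemma Wd_pow_mul {d e : ℕ} {P : k[X][X]} :
    Wd (d + e) ((C X : k[X][X]) ^ e * P) ↔ Wd d P := by
  constructor
  · intro h i j hij
    have h1 := h (i + e) j (by omega)
    rwa [← C_pow, coeff_C_mul, coeff_X_pow_mul] at h1
  · intro h i j hij
    rw [← C_pow, coeff_C_mul, coeff_X_pow_mul']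
    split_ifs with hi
    · exact h _ _ (by omega)
    · rfl

lemma mem_En_pow_mul {n d e : ℕ} {P : k[X][X]} :
    (C X : k[X][X]) ^ e * P ∈ (En n (d + e) : Submodule k k[X][X]) ↔
      P ∈ (En n d : Submodule k k[X][X]) := by
  rw [mem_En, mem_En, Wd_pow_mul]
  refine and_congr_right fun _ => forall_congr' fun j => imp_congr_right fun _ => ?_
  rw [← C_pow, coeff_C_mul, mul_eq_zero]
  simp

/-- Multiplication by `p ^ e`. -/
noncomputable def mulp (k : Type) [Field k] (e : ℕ) :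
    (Fin 4 → k[X][X]) →ₗ[k] (Fin 4 → k[X][X]) where
  toFun v := fun i => (C X : k[X][X]) ^ e * v i
  map_add' v w := by
    funext i
    rw [Pi.add_apply, Pi.add_apply, mul_add]
  map_smul' c v := by
    funext i
    rw [Pi.smul_apply, RingHom.id_apply, Pi.smul_apply, mul_smul_comm]

lemma mulp_inj (e : ℕ) : Function.Injective (mulp k e) := by
  intro v w h
  funext i
  have h1 : (C X : k[X][X]) ^ e * v i = (C X : k[X][X]) ^ e * w i := congrFun h i
  exact mul_left_cancel₀ (pow_ne_zero _ (by simp)) h1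

lemma mulp_eq (e : ℕ) (v : Fin 4 → k[X][X]) : mulp k e v = (C X : k[X][X]) ^ e • v := rfl

lemma mulp_mem {m n d : ℕ} {g f : k[X][X]} {A : Matrix (Fin 3) (Fin 3) k[X][X]}
    {J : Ideal k[X][X]} (hC : Curve m g f) (hJ : Half m g f J) (e : ℕ) (v : Fin 4 → k[X][X]) :
    mulp k e v ∈ Yd n (d + e) (modX A J) ↔ v ∈ Yd n d (modX A J) := by
  rw [mem_Yd, mem_Yd]
  have h1 : mulp k e v ∈ modX A J ↔ v ∈ modX A J := by
    constructor
    · rintro ⟨h2, h3⟩
      refine ⟨J_sat hC hJ e _ h2, fun i => J_sat hC hJ e _ ?_⟩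
      have h4 := h3 i
      rw [mulp_eq, av_smul, mulVec_smul] at h4
      exact h4
    · intro h2
      rw [mulp_eq]
      exact Submodule.smul_mem _ _ h2
  rw [h1]
  refine and_congr_right fun _ => forall_congr' fun i => ?_
  have h2 : d + e + wt4 i = d + wt4 i + e := by omega
  rw [h2]
  exact mem_En_pow_mul

/-- The Frobenius algebra `k[p][q] / (g, p ^ N)`. -/
lemma exists_Q (g : k[X][X]) (hg : g.Monic) (n N : ℕ) (hn : g.natDegree = n) (h1 : 1 ≤ n)
    (hN : 1 ≤ N) : ∃ (Q : Type) (_ : CommRing Q) (_ : Algebra k Q) (π : k[X][X] →ₐ[k] Q)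
      (lam : Q →ₗ[k] k), Module.Finite k Q ∧ finrank k Q = n * N ∧
      (∀ P, π P = 0 ↔ (C X : k[X][X]) ^ N ∣ P %ₘ g) ∧ Function.Surjective π ∧
      (∀ h, lam (π h) = ((h %ₘ g).coeff (n - 1)).coeff (N - 1)) ∧
      ∀ u, (∀ r, lam (r * u) = 0) → u = 0 := by
  obtain ⟨lam, h2, h3⟩ := H908.exists_frob g hg n N hn h1 hN
  obtain ⟨h4, h5⟩ := H908.finrank_Q g hg n N hn
  exact ⟨QQ g N, inferInstance, inferInstance, Ideal.Quotient.mkₐ k _, lam, h4, h5,
    fun P => pr_eq_zero_iff hg, Ideal.Quotient.mkₐ_surjective k _, h2, h3⟩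

section quot

variable {Q : Type} [CommRing Q] [Algebra k Q] (π : k[X][X] →ₐ[k] Q) {g : k[X][X]} {N : ℕ}

/-- The reduction of vectors. -/
noncomputable def prL : (Fin 4 → k[X][X]) →ₗ[k] (Fin 4 → Q) :=
  LinearMap.pi fun i => π.toLinearMap ∘ₗ LinearMap.proj i

lemma prL_apply (v : Fin 4 → k[X][X]) : prL π v = fun i => π (v i) := rfl

variable {π} (hπ : ∀ P, π P = 0 ↔ (C X : k[X][X]) ^ N ∣ P %ₘ g)

include hπ

lemma pi_g (hg : g.Monic) (b : k[X][X]) : π (b * g) = 0 := by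
  rw [hπ, (modByMonic_eq_zero_iff_dvd hg).mpr (dvd_mul_left g b)]
  exact dvd_zero _

lemma pi_dvd (hg : g.Monic) {b : k[X][X]} (h : g ∣ b) : π b = 0 := by
  rw [hπ, (modByMonic_eq_zero_iff_dvd hg).mpr h]
  exact dvd_zero _

lemma pi_pow (b : k[X][X]) : π ((C X : k[X][X]) ^ N * b) = 0 := by
  rw [hπ, mod_pow_mul]
  exact dvd_mul_right _ _

lemma pi_mod (hg : g.Monic) (b : k[X][X]) : π (b %ₘ g) = π b := by
  have h1 := modByMonic_add_div b g
  conv_rhs => rw [← h1]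
  rw [map_add, mul_comm g, pi_g hπ hg, add_zero]

lemma pi_inj {d n : ℕ} (hg : g.Monic) (hn : g.natDegree = n) (hgW : Wd n g) (hd : d < N)
    {b : k[X][X]} (hb : Wd d b) (h : π b = 0) : g ∣ b := by
  rw [hπ] at h
  rw [← modByMonic_eq_zero_iff_dvd hg]
  exact eq_zero_of_CX_pow_dvd (Wd_mod hg hn hgW hb) hd h

lemma prL_inj {n d : ℕ} (hg : g.Monic) (hn : g.natDegree = n) (hd : d + 3 < N)
    {Y : Submodule k[X][X] (Fin 4 → k[X][X])} {v : Fin 4 → k[X][X]}
    (hv : v ∈ Yd n d Y) (h0 : prL π v = 0) : v = 0 := by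
  funext i
  have h1 : π (v i) = 0 := congrFun h0 i
  rw [hπ, mod_eq_self hg hn ((mem_Yd.mp hv).2 i).2] at h1
  exact eq_zero_of_CX_pow_dvd (Yd_wd' hv i) hd h1

lemma finrank_map_prL {n d : ℕ} (hg : g.Monic) (hn : g.natDegree = n)
    (hd : d + 3 < N) {Y : Submodule k[X][X] (Fin 4 → k[X][X])}
    {W : Submodule k (Fin 4 → k[X][X])} (hW : W ≤ Yd n d Y) :
    finrank k (W.map (prL π)) = finrank k W := by
  have h2 : Function.Injective ((prL π).domRestrict W) := by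
    rw [injective_iff_map_eq_zero]
    rintro ⟨v, hv⟩ h0
    exact Subtype.ext (prL_inj hπ hg hn hd (hW hv) h0)
  have h3 := (LinearEquiv.ofInjective _ h2).finrank_eq
  rw [LinearMap.range_domRestrict] at h3
  exact h3.symm

/-- A class is a unit if it is one on the line `p = 0`. -/
lemma unit_of_line (hg : g.Monic) {h α β γ : k[X][X]} (hh : α * h + β * g + γ * C X = 1) :
    ∃ u : Q, π h * u = 1 := by
  have h1 : IsNilpotent (π (γ * C X)) := by
    refine ⟨N, ?_⟩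
    rw [← map_pow, mul_pow, mul_comm, pi_pow hπ]
  have h2 := h1.isUnit_one_sub
  obtain ⟨w, hw⟩ := h2.exists_right_inv
  refine ⟨π α * w, ?_⟩
  have h3 : π h * π α = 1 - π (γ * C X) := by
    have h4 : h * α = 1 - γ * C X - β * g := by linear_combination hh
    rw [← map_mul, h4, map_sub, pi_g hπ hg, sub_zero, map_sub, map_one]
  rw [← mul_assoc, h3, hw]

end quot

end

/-- The polar form takes values in `(f, g)` on `X`. -/
lemma dot_mem {R : Type} [CommRing R] {A : Matrix (Fin 3) (Fin 3) R} (hA : A.IsSymm) {I : Ideal R}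
    (hdet : A.det ∈ I)
    (hr : Ideal.span (Set.range fun ij : Fin 3 × Fin 3 => A.adjugate ij.1 ij.2) ⊔ I = ⊤)
    (a a' : Fin 3 → R) (h : ∀ i j, (A.adjugate *ᵥ a) i * (A.adjugate *ᵥ a') j ∈ I) :
    a ⬝ᵥ (A.adjugate *ᵥ a') ∈ I := by
  set N := A.adjugate with hN
  set t := a ⬝ᵥ (N *ᵥ a') with ht
  have hNs : ∀ i j, N i j = N j i := fun i j => (hA.adjugate).apply j i
  have h1 : ∀ r l, N r l * t ∈ I := by
    intro r l
    have h2 : ∀ i j, N l r * N i j - N l j * N i r ∈ I := by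
      intro i j
      obtain ⟨q, hq⟩ := H946.adj3_minor A l r i j
      rw [hN, hq]
      exact I.mul_mem_right _ hdet
    have h3 : N r l * t = (N *ᵥ a) r * (N *ᵥ a') l +
        ∑ i, ∑ j, a i * a' j * (N l r * N i j - N l j * N i r) := by
      rw [ht]
      simp only [mulVec, dotProduct, Fin.sum_univ_three]
      rw [hNs 0 r, hNs 1 r, hNs 2 r, hNs l r]
      ring
    rw [h3]
    exact I.add_mem (h r l) (I.sum_mem fun i _ => I.sum_mem fun j _ => I.mul_mem_left _ (h2 i j))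
  have h4 : (⊤ : Ideal R) ≤ Submodule.comap (LinearMap.mulRight R t) I := by
    rw [← hr]
    refine sup_le ?_ ?_
    · rw [Ideal.span_le]
      rintro _ ⟨ij, rfl⟩
      exact h1 ij.1 ij.2
    · intro r hr'
      exact I.mul_mem_right _ hr'
  have h5 : (1 : R) ∈ Submodule.comap (LinearMap.mulRight R t) I := h4 trivial
  rw [Submodule.mem_comap, LinearMap.mulRight_apply, one_mul] at h5
  exact h5

lemma Ph_mem {k : Type} [Field k] {m : ℕ} {g f : k[X][X]} {A : Matrix (Fin 3) (Fin 3) k[X][X]}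
    {J : Ideal k[X][X]} (hJ : Half m g f J) (hQ : Quadrics g f A) {v w : Fin 4 → k[X][X]}
    (hv : v ∈ modX A J) (hw : w ∈ modX A J) : Ph A v w ∈ Ideal.span {f, g} := by
  refine Ideal.add_mem _ (hJ.mul_mem _ hv.1 _ hw.1) ?_
  refine dot_mem hQ.symm ?_ hQ.rank _ _ fun i j => hJ.mul_mem _ (hv.2 i) _ (hw.2 j)
  rw [hQ.det]
  exact neg_mem (Ideal.subset_span (by simp))

lemma Ph_wd {k : Type} [Field k] {g f : k[X][X]} {A : Matrix (Fin 3) (Fin 3) k[X][X]}
    (hQ : Quadrics g f A) {K : ℕ} {v w : Fin 4 → k[X][X]}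
    (hv : Wd (K + 3) (v 0) ∧ ∀ j, Wd (K + 1) (av v j))
    (hw : Wd (K + 3) (w 0) ∧ ∀ j, Wd (K + 1) (av w j)) : Wd (2 * K + 6) (Ph A v w) := by
  refine Wd_add (Wd_mul_le hv.1 hw.1 (by omega)) (Wd_dot (e := K + 5) hv.2 (fun i => ?_) (by omega))
  exact Wd_mulVec (d := 4) (fun i j => Wd_adj hQ.wd i j) hw.2 (by omega) i

/-- [M] -/
theorem stmtM : StmtM := by
  intro k _ _ m hm g f A J x ν dν hC hJ hQ hI
  refine ⟨m + 4 + dν, fun e he => ?_⟩
  have hg := hC.monic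
  have hn := hC.deg
  set K := m - 1 + e with hK
  obtain ⟨Q, _, _, π, lam, hfin, hdimQ, hπ, hsurj, hlam1, hlam2⟩ :=
    exists_Q g hC.monic (2 * m + 1) (2 * e) hC.deg (by omega) (by omega)
  -- the inverse of `f`
  obtain ⟨α, β, γ, hline⟩ := hC.line
  obtain ⟨f', hf'⟩ := unit_of_line hπ hg hline
  -- the unimodular vector `ν`
  obtain ⟨z, β', γ', hline'⟩ := hI.line
  obtain ⟨u, hu⟩ := unit_of_line hπ hg (h := z ⬝ᵥ ν) (α := 1) (by rw [one_mul]; exact hline')
  set A' : Matrix (Fin 3) (Fin 3) Q := A.map (π : k[X][X] →+* Q) with hA'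
  set ν' : Fin 3 → Q := fun i => π (ν i) with hν'
  set z' : Fin 3 → Q := u • fun i => π (z i) with hz'
  have hzν : z' ⬝ᵥ ν' = 1 := by
    have h1 : π (z ⬝ᵥ ν) = (fun i => π (z i)) ⬝ᵥ (fun i => π (ν i)) :=
      map_dot (π : k[X][X] →+* Q) z ν
    rw [hz', smul_dotProduct, hν', ← h1, smul_eq_mul, mul_comm, hu]
  have hAs : A'.IsSymm := hQ.symm.map _
  have hdet : A'.det = -(π f) := by
    rw [hA', map_det', hQ.det]
    exact map_neg π f
  have hνA : ν' ⬝ᵥ (A' *ᵥ ν') = 0 := by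
    have h1 : π (ν ⬝ᵥ (A *ᵥ ν)) = ν' ⬝ᵥ (A' *ᵥ ν') := by
      have h2 := map_dot (π : k[X][X] →+* Q) ν (A *ᵥ ν)
      rw [map_mulv] at h2
      exact h2
    rw [← h1, pi_dvd hπ hg hI.iso]
  -- the nilpotent
  set P : Q := π ((C X : k[X][X]) ^ e) with hP
  have h0 : (C X : k[X][X]) ^ e ≠ 0 := pow_ne_zero _ (by simp)
  have hP1 : ∀ w : Q, P * w = 0 → ∃ w', w = P * w' := by
    intro w hw
    obtain ⟨b, rfl⟩ := hsurj w
    rw [hP, ← map_mul, hπ, mod_pow_mul, two_mul, pow_add] at hw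
    obtain ⟨b', hb'⟩ := (mul_dvd_mul_iff_left h0).mp hw
    refine ⟨π b', ?_⟩
    rw [hP, ← map_mul, ← hb', pi_mod hπ hg]
  have hPP : P * P = 0 := by
    rw [hP, ← map_mul, ← pow_add, ← two_mul]
    have := pi_pow hπ 1
    rwa [mul_one] at this
  -- the third Lagrangian
  have hd : K + 3 < 2 * e := by omega
  have e3 := finrank_map_prL hπ hg hn hd (le_refl (Yd (2 * m + 1) K (modX A J)))
  have h33 : ∀ v ∈ (Yd (2 * m + 1) K (modX A J)).map (prL π),
      ∀ w ∈ (Yd (2 * m + 1) K (modX A J)).map (prL π), lam (f' * Ph A' v w) = 0 := by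
    rintro _ ⟨v, hv, rfl⟩ _ ⟨w, hw, rfl⟩
    have h1 : Ph A' (prL π v) (prL π w) = π (Ph A v w) := map_Ph (π : k[X][X] →+* Q) A v w
    obtain ⟨a, b, hab⟩ := Ideal.mem_span_pair.mp (Ph_mem hJ hQ (mem_Yd.mp hv).1 (mem_Yd.mp hw).1)
    have hwd := Ph_wd hQ (Yd_wd hv) (Yd_wd hw)
    have h2 : Wd (2 * K) (a %ₘ g) := by
      refine hC.inf.2 (2 * K) (a %ₘ g) (fun j hj => coeff_mod hg hn hj) ?_
      have h3 : (f * (a %ₘ g)) %ₘ g = (Ph A v w) %ₘ g := by
        rw [← sub_eq_zero, ← sub_modByMonic, modByMonic_eq_zero_iff_dvd hg]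
        refine ⟨-(f * (a /ₘ g)) - b, ?_⟩
        have h4 := modByMonic_add_div a g
        linear_combination hab + f * h4
      rw [h3]
      exact Wd_mod hg hn hC.wd hwd
    have h5 : f' * Ph A' (prL π v) (prL π w) = π (a %ₘ g) := by
      rw [h1, ← hab, map_add, pi_g hπ hg, add_zero, map_mul, pi_mod hπ hg]
      linear_combination (π a) * hf'
    rw [h5, hlam1, mod_eq_self hg hn (fun j hj => coeff_mod hg hn hj)]
    exact h2 _ _ (by omega)
  have hdim : 2 * finrank k Q ≤ finrank k ((Yd (2 * m + 1) K (modX A J)).map (prL π)) := by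
    rw [e3, hdimQ]
    have h1 := H946.finrank_le_Yd hJ hQ (2 * m + 1) K
    have h2 := two_mul_finrank_En (k := k) (n := 2 * m + 1) (d := K + 3) (by omega)
    have h3 := two_mul_finrank_En (k := k) (n := 2 * m + 1) (d := K + 1) (by omega)
    obtain ⟨m', rfl⟩ : ∃ m', m = m' + 1 := ⟨m - 1, by omega⟩
    have hK' : K = m' + e := by omega
    rw [hK'] at h1 h2 h3 ⊢
    nlinarith
  obtain ⟨hfin3, hpar⟩ := parity (k := k) two_ne_zero lam hlam2 hf' hAs hdet hzν hνA hP1 hPP _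
    h33 hdim
  have hY : finrank k (Yd (2 * m + 1) K (modX A J)) = 4 * (2 * m + 1) * e := by
    rw [← e3, hfin3, hdimQ]
    ring
  refine ⟨hY, ?_⟩
  -- the intersection with the second Lagrangian
  have hI2 : (LI A' ν' ⊤ ⊓ (Yd (2 * m + 1) K (modX A J)).map (prL π) :
      Submodule k (Fin 4 → Q)) = (Yd (2 * m + 1) K (modX A J ⊓ modM g A ν)).map (prL π) := by
    ext y
    constructor
    · rintro ⟨h1, v, hv, rfl⟩
      refine ⟨v, ?_, rfl⟩
      have h2 : InM A' ν' (fun i => π (v i)) := h1.1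
      have h3 := (map_InM (π : k[X][X] →+* Q) (A := A) (ν := ν) (v := v)).mp h2
      obtain ⟨w1, w2⟩ := Yd_wd hv
      rw [SetLike.mem_coe, mem_Yd] at hv ⊢
      have w3 : ∀ i, Wd (dν + 2) ((A *ᵥ ν) i) := Wd_mulVec hQ.wd hI.wd (by omega)
      refine ⟨⟨hv.1, ?_, fun i => ?_⟩, hv.2⟩
      · exact pi_inj hπ hg hn hC.wd (d := K + 1 + dν) (by omega)
          (Wd_dot w2 hI.wd le_rfl) h3.1
      · refine pi_inj hπ hg hn hC.wd (d := K + 3 + dν) (by omega) ?_ (h3.2 i)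
        exact Wd_sub (Wd_cross w2 w3 (by omega) i) (Wd_mul w1 (hI.wd i))
    · rintro ⟨v, hv, rfl⟩
      rw [SetLike.mem_coe, mem_Yd] at hv
      obtain ⟨⟨hv1, hv2, hv3⟩, hv4⟩ := hv
      refine ⟨⟨?_, fun i => trivial⟩, v, mem_Yd.mpr ⟨hv1, hv4⟩, rfl⟩
      have h3 := (map_InM (π : k[X][X] →+* Q) (A := A) (ν := ν) (v := v)).mpr
        ⟨pi_dvd hπ hg hv2, fun i => pi_dvd hπ hg (hv3 i)⟩
      exact h3
  -- the intersection with the first Lagrangian
  have hI1 : (L1 k P ⊓ (Yd (2 * m + 1) K (modX A J)).map (prL π) :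
      Submodule k (Fin 4 → Q)) =
      ((Yd (2 * m + 1) (m - 1) (modX A J)).map (mulp k e)).map (prL π) := by
    ext y
    rw [Submodule.mem_inf, mem_L1]
    constructor
    · rintro ⟨h1, v, hv, rfl⟩
      have h2 : ∀ i, ∃ v', v i = (C X : k[X][X]) ^ e * v' := by
        intro i
        have h3 : π ((C X : k[X][X]) ^ e * v i) = 0 := by
          rw [map_mul]
          exact h1 i
        rw [hπ, mod_pow_mul, mod_eq_self hg hn ((mem_Yd.mp hv).2 i).2, two_mul, pow_add] at h3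
        obtain ⟨b', hb'⟩ := (mul_dvd_mul_iff_left h0).mp h3
        exact ⟨b', hb'⟩
      choose v' hv' using h2
      have h3 : v = mulp k e v' := funext hv'
      refine ⟨v, ⟨v', ?_, h3.symm⟩, rfl⟩
      rw [h3] at hv
      exact (mulp_mem hC hJ e v').mp hv
    · rintro ⟨_, ⟨v', hv', rfl⟩, rfl⟩
      refine ⟨fun i => ?_, mulp k e v', (mulp_mem hC hJ e v').mpr hv', rfl⟩
      change P * π ((C X : k[X][X]) ^ e * v' i) = 0
      rw [map_mul, ← mul_assoc, ← hP, hPP, zero_mul]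
  rw [hI2, hI1, finrank_map_prL hπ hg hn hd
    (Y := modX A J ⊓ modM g A ν) le_rfl, finrank_map_prL hπ hg hn hd (Y := modX A J)] at hpar
  · have h1 : finrank k ((Yd (2 * m + 1) (m - 1) (modX A J)).map (mulp k e)) =
        finrank k (Yd (2 * m + 1) (m - 1) (modX A J)) :=
      ((Yd (2 * m + 1) (m - 1) (modX A J)).equivMapOfInjective _ (mulp_inj e)).finrank_eq.symm
    rw [h1] at hpar
    exact hpar
  · rintro _ ⟨v', hv', rfl⟩
    exact (mulp_mem hC hJ e v').mpr hv'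

end Vale.Agent.P287.Odd
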