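import Vale.Agent.P287.Odd.Spec
import Vale.Agent.P287.H684.Bk

/-!
Degrees, the spaces `En` and the quotient `k[p][q] / (g, p ^ N)`.
-/

namespace Vale.Agent.P287.Odd

open Polynomial Matrix Module H684

section

variable {k : Type} [Field k]

lemma Wd_iff {d : ℕ} {P : k[X][X]} : Wd d P ↔ TW d P := TW_iff.symm

lemma Wd_add {d : ℕ} {P Q : k[X][X]} (hP : Wd d P) (hQ : Wd d Q) : Wd d (P + Q) :=
  Wd_iff.mpr ((Wd_iff.mp hP).add (Wd_iff.mp hQ))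

lemma Wd_sub {d : ℕ} {P Q : k[X][X]} (hP : Wd d P) (hQ : Wd d Q) : Wd d (P - Q) :=
  Wd_iff.mpr ((Wd_iff.mp hP).sub (Wd_iff.mp hQ))

lemma Wd_mul {d e : ℕ} {P Q : k[X][X]} (hP : Wd d P) (hQ : Wd e Q) : Wd (d + e) (P * Q) :=
  Wd_iff.mpr ((Wd_iff.mp hP).mul (Wd_iff.mp hQ))

lemma Wd_mono {d e : ℕ} {P : k[X][X]} (hP : Wd d P) (h : d ≤ e) : Wd e P :=
  Wd_iff.mpr ((Wd_iff.mp hP).mono h)

lemma Wd_mul_le {d e s : ℕ} {P Q : k[X][X]} (hP : Wd d P) (hQ : Wd e Q) (h : d + e ≤ s) :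
    Wd s (P * Q) := Wd_mono (Wd_mul hP hQ) h

lemma Wd_sum {d : ℕ} {ι : Type*} (s : Finset ι) (P : ι → k[X][X]) (h : ∀ i ∈ s, Wd d (P i)) :
    Wd d (∑ i ∈ s, P i) :=
  Wd_iff.mpr (TW.sum s P fun i hi => Wd_iff.mp (h i hi))

lemma Wd_mod {n d : ℕ} {g P : k[X][X]} (hg : g.Monic) (hn : g.natDegree = n) (hgW : Wd n g)
    (hP : Wd d P) : Wd d (P %ₘ g) :=
  Wd_iff.mpr (TW.modByMonic hg hn (Wd_iff.mp hgW) (Wd_iff.mp hP))

lemma Wd_dot {d e s : ℕ} {v w : Fin 3 → k[X][X]} (hv : ∀ i, Wd d (v i)) (hw : ∀ i, Wd e (w i))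
    (h : d + e ≤ s) : Wd s (v ⬝ᵥ w) :=
  Wd_sum _ _ fun i _ => Wd_mul_le (hv i) (hw i) h

lemma Wd_mulVec {d e s : ℕ} {A : Matrix (Fin 3) (Fin 3) k[X][X]} {w : Fin 3 → k[X][X]}
    (hA : ∀ i j, Wd d (A i j)) (hw : ∀ i, Wd e (w i)) (h : d + e ≤ s) (i : Fin 3) :
    Wd s ((A *ᵥ w) i) := by
  change Wd s (∑ j, A i j * w j)
  exact Wd_sum _ _ fun j _ => Wd_mul_le (hA i j) (hw j) h

lemma Wd_cross {d e s : ℕ} {v w : Fin 3 → k[X][X]} (hv : ∀ i, Wd d (v i)) (hw : ∀ i, Wd e (w i))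
    (h : d + e ≤ s) (i : Fin 3) : Wd s (crossProduct v w i) := by
  rw [cross_apply]
  fin_cases i
  · exact Wd_sub (Wd_mul_le (hv 1) (hw 2) h) (Wd_mul_le (hv 2) (hw 1) h)
  · exact Wd_sub (Wd_mul_le (hv 2) (hw 0) h) (Wd_mul_le (hv 0) (hw 2) h)
  · exact Wd_sub (Wd_mul_le (hv 0) (hw 1) h) (Wd_mul_le (hv 1) (hw 0) h)

lemma Wd_adj {d : ℕ} {A : Matrix (Fin 3) (Fin 3) k[X][X]} (hA : ∀ i j, Wd d (A i j))
    (i j : Fin 3) : Wd (d + d) (A.adjugate i j) := by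
  have h1 : ∀ a b c d', Wd (d + d) (A a b * A c d' - A (a + 0) d' * A c (b + 0)) := fun a b c d' =>
    Wd_sub (Wd_mul (hA _ _) (hA _ _)) (Wd_mul (hA _ _) (hA _ _))
  have h2 : ∀ a b c d' a' b' c' d'', Wd (d + d) (A a b * A c d' - A a' b' * A c' d'') :=
    fun a b c d' a' b' c' d'' =>
    Wd_sub (Wd_mul (hA _ _) (hA _ _)) (Wd_mul (hA _ _) (hA _ _))
  have h3 : ∀ a b c d' a' b' c' d'', Wd (d + d) (-(A a b * A c d') + A a' b' * A c' d'') := by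
    intro a b c d' a' b' c' d''
    rw [neg_add_eq_sub]
    exact h2 _ _ _ _ _ _ _ _
  rw [adjugate_fin_three]
  fin_cases i <;> fin_cases j
  · exact h2 _ _ _ _ _ _ _ _
  · exact h3 _ _ _ _ _ _ _ _
  · exact h2 _ _ _ _ _ _ _ _
  · exact h3 _ _ _ _ _ _ _ _
  · exact h2 _ _ _ _ _ _ _ _
  · exact h3 _ _ _ _ _ _ _ _
  · exact h2 _ _ _ _ _ _ _ _
  · exact h3 _ _ _ _ _ _ _ _
  · exact h2 _ _ _ _ _ _ _ _

lemma En_eq (n d : ℕ) : (En n d : Submodule k k[X][X]) = PB k n d := by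
  ext P
  rw [mem_PB]
  exact and_congr_left fun _ => Wd_iff

instance finite_En (n d : ℕ) : Module.Finite k (En n d : Submodule k k[X][X]) := by
  rw [En_eq]
  infer_instance

lemma two_mul_finrank_En {n d : ℕ} (h : n ≤ d + 1) :
    2 * finrank k (En n d : Submodule k k[X][X]) + n * n = n * (2 * d + 3) := by
  rw [En_eq]
  exact two_mul_finrank_PB h

lemma mem_En {n d : ℕ} {P : k[X][X]} : P ∈ (En n d : Submodule k k[X][X]) ↔
    Wd d P ∧ ∀ j, n ≤ j → P.coeff j = 0 := Iff.rfl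

lemma mem_Yd {n d : ℕ} {Y : Submodule k[X][X] (Fin 4 → k[X][X])} {v : Fin 4 → k[X][X]} :
    v ∈ Yd n d Y ↔ v ∈ Y ∧ ∀ i, v i ∈ (En n (d + wt4 i) : Submodule k k[X][X]) := by
  rw [Yd, Submodule.mem_inf, Submodule.restrictScalars_mem, Submodule.mem_pi]
  simp

/-- Reduced polynomials are equal to their remainder. -/
lemma mod_eq_self {n : ℕ} {g P : k[X][X]} (hg : g.Monic) (hn : g.natDegree = n)
    (hP : ∀ j, n ≤ j → P.coeff j = 0) : P %ₘ g = P := by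
  rw [modByMonic_eq_self_iff hg, degree_eq_natDegree hg.ne_zero, hn, degree_lt_iff_coeff_zero]
  intro j hj
  exact hP j hj

lemma coeff_mod {n : ℕ} {g P : k[X][X]} (hg : g.Monic) (hn : g.natDegree = n) {j : ℕ}
    (hj : n ≤ j) : (P %ₘ g).coeff j = 0 := by
  have h1 := degree_modByMonic_lt P hg
  rw [degree_eq_natDegree hg.ne_zero, hn, degree_lt_iff_coeff_zero] at h1
  exact h1 j hj

lemma mod_mem_En {n d : ℕ} {g P : k[X][X]} (hg : g.Monic) (hn : g.natDegree = n) (hgW : Wd n g)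
    (hP : Wd d P) : P %ₘ g ∈ (En n d : Submodule k k[X][X]) :=
  ⟨Wd_mod hg hn hgW hP, fun _ hj => coeff_mod hg hn hj⟩

/-- Divisibility by a power of `p`, in coefficients. -/
lemma CX_pow_dvd_iff {N : ℕ} {P : k[X][X]} :
    (C X : k[X][X]) ^ N ∣ P ↔ ∀ j, ∀ i < N, (P.coeff j).coeff i = 0 := by
  rw [← C_pow, C_dvd_iff_dvd_coeff]
  simp only [X_pow_dvd_iff]

lemma eq_zero_of_CX_pow_dvd {N d : ℕ} {P : k[X][X]} (hP : Wd d P) (hd : d < N)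
    (h : (C X : k[X][X]) ^ N ∣ P) : P = 0 := by
  rw [CX_pow_dvd_iff] at h
  ext j i
  rw [coeff_zero, coeff_zero]
  by_cases hi : i < N
  · exact h j i hi
  · exact hP i j (by omega)

lemma mod_pow_mul {N : ℕ} {g P : k[X][X]} :
    ((C X : k[X][X]) ^ N * P) %ₘ g = (C X : k[X][X]) ^ N * (P %ₘ g) := by
  rw [← C_pow, ← smul_eq_C_mul, smul_modByMonic, smul_eq_C_mul]

/-- The quotient `k[p][q] / (g, p ^ N)`. -/
abbrev QQ (g : k[X][X]) (N : ℕ) : Type :=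
  k[X][X] ⧸ Ideal.span {g, (C X : k[X][X]) ^ N}

/-- The quotient map. -/
noncomputable abbrev pr (g : k[X][X]) (N : ℕ) : k[X][X] →+* QQ g N := Ideal.Quotient.mk _

lemma pr_eq_zero_iff {N : ℕ} {g P : k[X][X]} (hg : g.Monic) :
    pr g N P = 0 ↔ (C X : k[X][X]) ^ N ∣ P %ₘ g := by
  rw [Ideal.Quotient.eq_zero_iff_mem, Ideal.mem_span_pair]
  constructor
  · rintro ⟨a, b, h⟩
    rw [← h, add_modByMonic, (modByMonic_eq_zero_iff_dvd hg).mpr (dvd_mul_left g a), zero_add,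
      mul_comm b, mod_pow_mul]
    exact dvd_mul_right _ _
  · rintro ⟨b, h⟩
    refine ⟨P /ₘ g, b, ?_⟩
    have h1 := modByMonic_add_div P g
    rw [h] at h1
    linear_combination h1

lemma pr_g (g : k[X][X]) (N : ℕ) : pr g N g = 0 :=
  Ideal.Quotient.eq_zero_iff_mem.mpr (Ideal.subset_span (by simp))

lemma pr_pow (g : k[X][X]) (N : ℕ) : pr g N ((C X : k[X][X]) ^ N) = 0 :=
  Ideal.Quotient.eq_zero_iff_mem.mpr (Ideal.subset_span (by simp))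

lemma pr_mod (g : k[X][X]) (N : ℕ) (P : k[X][X]) : pr g N (P %ₘ g) = pr g N P := by
  refine Ideal.Quotient.eq.mpr ?_
  have h1 := modByMonic_add_div P g
  have h2 : P %ₘ g - P = (-(P /ₘ g)) * g := by linear_combination h1
  rw [h2]
  exact Ideal.mul_mem_left _ _ (Ideal.subset_span (by simp))

/-- An element killed by `p ^ e` modulo `p ^ (2 e)` is a multiple of `p ^ e`. -/
lemma exists_of_pow_mul {e : ℕ} {g : k[X][X]} (hg : g.Monic)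
    (u : QQ g (2 * e)) (hu : pr g (2 * e) ((C X : k[X][X]) ^ e) * u = 0) :
    ∃ w, u = pr g (2 * e) ((C X : k[X][X]) ^ e) * w := by
  obtain ⟨P, rfl⟩ := Ideal.Quotient.mk_surjective u
  rw [← map_mul, pr_eq_zero_iff hg, mod_pow_mul, two_mul, pow_add] at hu
  have h0 : (C X : k[X][X]) ^ e ≠ 0 := pow_ne_zero _ (by simp)
  obtain ⟨b, hb⟩ := (mul_dvd_mul_iff_left h0).mp hu
  refine ⟨pr g (2 * e) b, ?_⟩
  rw [← map_mul, ← hb, pr_mod]

end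

end Vale.Agent.P287.Odd
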