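import Mathlib

/-!
The odd theta theorem: definitions and literal statements over a field `k`
(`k = ℂ` or `k = RatK`). Coordinates of the plane: `p = C X` (inner variable), `q = X` (outer
variable) of `k[X][X]`; the curve `g = 0` is monic of degree `2 m + 1` in `q`.
-/

namespace Vale.Agent.P287.Odd

open Polynomial Matrix Module

section defs

variable {R : Type} [CommRing R]

/-- The vector `a` of `v = (c, a)`. -/
def av (v : Fin 4 → R) : Fin 3 → R := fun j => v j.succ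

lemma av_add (v w : Fin 4 → R) : av (v + w) = av v + av w := rfl
lemma av_smul (c : R) (v : Fin 4 → R) : av (c • v) = c • av v := rfl
lemma av_zero : av (0 : Fin 4 → R) = 0 := rfl

/-- The module `X`: the pairs `(c, a)` with `c ∈ J` and `adj(A) a ∈ J³`. -/
def modX (A : Matrix (Fin 3) (Fin 3) R) (J : Ideal R) : Submodule R (Fin 4 → R) where
  carrier := {v | v 0 ∈ J ∧ ∀ i, (A.adjugate *ᵥ av v) i ∈ J}
  add_mem' := fun {v w} hv hw => ⟨J.add_mem hv.1 hw.1, fun i => by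
    rw [av_add, mulVec_add]
    exact J.add_mem (hv.2 i) (hw.2 i)⟩
  zero_mem' := ⟨J.zero_mem, fun i => by
    rw [av_zero, mulVec_zero]
    exact J.zero_mem⟩
  smul_mem' := fun c v hv => ⟨J.mul_mem_left c hv.1, fun i => by
    rw [av_smul, mulVec_smul]
    exact J.mul_mem_left c (hv.2 i)⟩

/-- The isotropic module `M' = {(c, a) : a ν = 0, a × A ν = c ν}` modulo `g`. -/
def modM (g : R) (A : Matrix (Fin 3) (Fin 3) R) (ν : Fin 3 → R) : Submodule R (Fin 4 → R) where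
  carrier := {v | g ∣ av v ⬝ᵥ ν ∧ ∀ i, g ∣ (crossProduct (av v) (A *ᵥ ν) - v 0 • ν) i}
  add_mem' := fun {v w} hv hw => by
    refine ⟨?_, fun i => ?_⟩
    · rw [av_add, add_dotProduct]
      exact dvd_add hv.1 hw.1
    · have h2 : (crossProduct (av (v + w)) (A *ᵥ ν) - (v + w) 0 • ν) i =
          (crossProduct (av v) (A *ᵥ ν) - v 0 • ν) i +
          (crossProduct (av w) (A *ᵥ ν) - w 0 • ν) i := by
        rw [av_add, map_add, LinearMap.add_apply]
        simp only [Pi.sub_apply, Pi.add_apply, Pi.smul_apply, smul_eq_mul]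
        ring
      rw [h2]
      exact dvd_add (hv.2 i) (hw.2 i)
  zero_mem' := by
    refine ⟨?_, fun i => ?_⟩
    · rw [av_zero, zero_dotProduct]
      exact dvd_zero _
    · rw [av_zero, map_zero, LinearMap.zero_apply]
      simp
  smul_mem' := fun c v hv => by
    refine ⟨?_, fun i => ?_⟩
    · rw [av_smul, smul_dotProduct]
      exact hv.1.mul_left c
    · have h2 : (crossProduct (av (c • v)) (A *ᵥ ν) - (c • v) 0 • ν) i =
          c * (crossProduct (av v) (A *ᵥ ν) - v 0 • ν) i := by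
        rw [av_smul, map_smul, LinearMap.smul_apply]
        simp only [Pi.sub_apply, Pi.smul_apply, smul_eq_mul]
        ring
      rw [h2]
      exact (hv.2 i).mul_left c

/-- The module `P = R (A x) + J`, modulo `g`. -/
def modP (g : R) (A : Matrix (Fin 3) (Fin 3) R) (J : Ideal R) (x : Fin 3 → R) :
    Submodule R (Fin 4 → R) where
  carrier := {v | v 0 ∈ J ∧ ∃ β : R, ∀ i : Fin 3, g ∣ (av v - β • (A *ᵥ x)) i}
  add_mem' := by
    rintro v w ⟨hv, β, hβ⟩ ⟨hw, γ, hγ⟩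
    refine ⟨J.add_mem hv hw, β + γ, fun i => ?_⟩
    have h2 : (av (v + w) - (β + γ) • (A *ᵥ x)) i =
        (av v - β • (A *ᵥ x)) i + (av w - γ • (A *ᵥ x)) i := by
      rw [av_add]
      simp only [Pi.sub_apply, Pi.add_apply, Pi.smul_apply, smul_eq_mul]
      ring
    rw [h2]
    exact dvd_add (hβ i) (hγ i)
  zero_mem' := ⟨J.zero_mem, 0, fun i => by rw [av_zero, zero_smul, sub_zero]; exact dvd_zero _⟩
  smul_mem' := by
    rintro c v ⟨hv, β, hβ⟩
    refine ⟨J.mul_mem_left c hv, c * β, fun i => ?_⟩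
    have h2 : (av (c • v) - (c * β) • (A *ᵥ x)) i = c * (av v - β • (A *ᵥ x)) i := by
      rw [av_smul]
      simp only [Pi.sub_apply, Pi.smul_apply, smul_eq_mul]
      ring
    rw [h2]
    exact (hβ i).mul_left c

/-- The quotient `X / (X ∩ L)`. -/
abbrev Nq (Y L : Submodule R (Fin 4 → R)) : Type := Y ⧸ L.comap Y.subtype

end defs

section field

variable {k : Type} [Field k]

/-- Total degree at most `d`. -/
def Wd (d : ℕ) (P : k[X][X]) : Prop := ∀ i j, d < i + j → (P.coeff j).coeff i = 0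

/-- The polynomials of total degree at most `d` and of `q`-degree less than `n`. -/
noncomputable def En (n d : ℕ) : Submodule k k[X][X] where
  carrier := {P | Wd d P ∧ ∀ j, n ≤ j → P.coeff j = 0}
  add_mem' := fun {P Q} hP hQ => ⟨fun i j h => by
      rw [coeff_add, coeff_add, hP.1 i j h, hQ.1 i j h, add_zero], fun j h => by
      rw [coeff_add, hP.2 j h, hQ.2 j h, add_zero]⟩
  zero_mem' := ⟨fun i j h => by simp, fun j h => by simp⟩
  smul_mem' := fun c P hP => ⟨fun i j h => by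
      rw [coeff_smul, coeff_smul, hP.1 i j h, smul_zero], fun j h => by
      rw [coeff_smul, hP.2 j h, smul_zero]⟩

/-- The weights of the coordinates `(c, a₁, a₂, a₃)`. -/
def wt4 : Fin 4 → ℕ := ![3, 1, 1, 1]

/-- The reduced vectors of degree at most `d` of a module. -/
noncomputable def Yd (n d : ℕ) (Y : Submodule k[X][X] (Fin 4 → k[X][X])) :
    Submodule k (Fin 4 → k[X][X]) :=
  Y.restrictScalars k ⊓ Submodule.pi Set.univ (fun i => En n (d + wt4 i))

/-- A polynomial of degree `d` without zeros at the points at infinity of the curve `g = 0` of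
degree `n`. -/
def InfUnit (n : ℕ) (g : k[X][X]) (d : ℕ) (z : k[X][X]) : Prop :=
  Wd d z ∧ ∀ (e : ℕ) (h : k[X][X]), (∀ j, n ≤ j → h.coeff j = 0) →
    Wd (e + d) ((z * h) %ₘ g) → Wd e h

/-- The curve `g = 0` and the sextic `f = 0` in good coordinates. -/
structure Curve (m : ℕ) (g f : k[X][X]) : Prop where
  monic : g.Monic
  deg : g.natDegree = 2 * m + 1
  wd : Wd (2 * m + 1) g
  prime : Prime g
  ndvd : ¬ g ∣ f
  /-- `f` does not vanish at the points at infinity of the curve -/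
  inf : InfUnit (2 * m + 1) g 6 f
  /-- the line `p = 0` does not meet `f = g = 0` -/
  line : ∃ α β γ : k[X][X], α * f + β * g + γ * C X = 1

/-- The ideal `{c : c² ∈ (f, g)}`. -/
structure Half (m : ℕ) (g f : k[X][X]) (J : Ideal k[X][X]) : Prop where
  f_mem : f ∈ J
  g_mem : g ∈ J
  mul_mem : ∀ a ∈ J, ∀ b ∈ J, a * b ∈ Ideal.span {f, g}
  fin : Module.Finite k (k[X][X] ⧸ J)
  dim : finrank k (k[X][X] ⧸ J) ≤ 3 * (2 * m + 1)

/-- The symmetric matrix of quadrics with `det A = - f`. -/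
structure Quadrics (g f : k[X][X]) (A : Matrix (Fin 3) (Fin 3) k[X][X]) : Prop where
  symm : A.IsSymm
  wd : ∀ i j, Wd 2 (A i j)
  det : A.det = -f
  /-- `A` has rank at least two at the points `f = g = 0` -/
  rank : Ideal.span (Set.range fun ij : Fin 3 × Fin 3 => A.adjugate ij.1 ij.2) ⊔
    Ideal.span {f, g} = ⊤

/-- The constant vector `x`. -/
noncomputable def cx (x : Fin 3 → k) : Fin 3 → k[X][X] := fun i => C (C (x i))

/-- An isotropic vector `ν` of `A` on the curve, with `x ν` and `x A ν` non-zero at the points at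
infinity. -/
structure Iso (m : ℕ) (g : k[X][X]) (A : Matrix (Fin 3) (Fin 3) k[X][X]) (x : Fin 3 → k)
    (ν : Fin 3 → k[X][X]) (dν : ℕ) : Prop where
  iso : g ∣ ν ⬝ᵥ (A *ᵥ ν)
  wd : ∀ i, Wd dν (ν i)
  inf : InfUnit (2 * m + 1) g dν (cx x ⬝ᵥ ν)
  inf' : InfUnit (2 * m + 1) g (dν + 2) (cx x ⬝ᵥ (A *ᵥ ν))
  /-- `ν` does not vanish at the points of the curve on the line `p = 0` -/
  line : ∃ (z : Fin 3 → k[X][X]) (β γ : k[X][X]), z ⬝ᵥ ν + β * g + γ * C X = 1

end field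

/-- [M] The Mumford block (helper276). -/
def StmtM : Prop := ∀ (k : Type) [Field k] [CharZero k] (m : ℕ), 1 ≤ m → ∀ (g f : k[X][X])
  (A : Matrix (Fin 3) (Fin 3) k[X][X]) (J : Ideal k[X][X]) (x : Fin 3 → k)
  (ν : Fin 3 → k[X][X]) (dν : ℕ), Curve m g f → Half m g f J → Quadrics g f A →
  Iso m g A x ν dν →
  ∃ e₀, ∀ e ≥ e₀, finrank k (Yd (2 * m + 1) (m - 1 + e) (modX A J)) = 4 * (2 * m + 1) * e ∧
    Even (finrank k (Yd (2 * m + 1) (m - 1 + e) (modX A J ⊓ modM g A ν)) +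
      finrank k (Yd (2 * m + 1) (m - 1) (modX A J)))

/-- [N] The dimension of `N' = X / (X ∩ M' + P)` (uses [M]). -/
def StmtN : Prop := ∀ (k : Type) [Field k] [CharZero k] (m : ℕ), 1 ≤ m → ∀ (g f : k[X][X])
  (A : Matrix (Fin 3) (Fin 3) k[X][X]) (J : Ideal k[X][X]) (x : Fin 3 → k)
  (ν : Fin 3 → k[X][X]) (dν : ℕ), Curve m g f → Half m g f J → Quadrics g f A →
  Iso m g A x ν dν → Even (finrank k (Yd (2 * m + 1) (m - 1) (modX A J))) →
  Module.Finite k (Nq (modX A J) ((modX A J ⊓ modM g A ν) ⊔ modP g A J (cx x))) ∧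
    Odd (finrank k (Nq (modX A J) ((modX A J ⊓ modM g A ν) ⊔ modP g A J (cx x))))

/-- [J] The two commuting operators on `N'`: multiplication by `ζ σ_x` and by `c₀ σ_x`. -/
def StmtJ : Prop := ∀ (R : Type) [CommRing R] [IsDomain R] (g f : R)
  (A : Matrix (Fin 3) (Fin 3) R) (J : Ideal R) (x ν : Fin 3 → R) (s₀ c₀ : R), Prime g →
  ¬ g ∣ f → A.IsSymm → A.det = -f → f ∈ J → g ∈ J → (∀ a ∈ J, ∀ b ∈ J, a * b ∈ Ideal.span {f, g}) →
  g ∣ ν ⬝ᵥ (A *ᵥ ν) → (∃ i, ¬ g ∣ ν i) → s₀ ∈ J → g ∣ c₀ ^ 2 * f - s₀ ^ 2 →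
  ∃ S T : Module.End R (Nq (modX A J) ((modX A J ⊓ modM g A ν) ⊔ modP g A J x)),
    S * T = T * S ∧ S * S = algebraMap _ _ (f * (x ⬝ᵥ (A *ᵥ x))) ∧
      T * T = algebraMap _ _ (c₀ ^ 2 * (x ⬝ᵥ (A *ᵥ x)))

/-- [O] An odd dimensional module has a residue field of odd degree. -/
def StmtO : Prop := ∀ (k : Type) [Field k] (R : Type) [CommRing R] [Algebra k R] (N : Type)
  [AddCommGroup N] [Module R N] [Module k N] [IsScalarTower k R N] [Module.Finite k N]
  (S T : Module.End R N) (a b g : R), S * T = T * S → S * S = algebraMap _ _ a →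
  T * T = algebraMap _ _ b → (∀ n : N, g • n = 0) → Odd (finrank k N) →
  ∃ (E : Type) (_ : Field E) (_ : Algebra k E) (φ : R →ₐ[k] E) (s t : E), Module.Finite k E ∧
    Odd (finrank k E) ∧ φ g = 0 ∧ s ^ 2 = φ a ∧ t ^ 2 = φ b

/-- The main theorem over `k`. -/
def StmtK : Prop := ∀ (k : Type) [Field k] [CharZero k] (m : ℕ), 1 ≤ m → ∀ (g f : k[X][X])
  (A : Matrix (Fin 3) (Fin 3) k[X][X]) (J : Ideal k[X][X]) (x : Fin 3 → k)
  (ν : Fin 3 → k[X][X]) (dν : ℕ) (s₀ c₀ : k[X][X]), Curve m g f → Half m g f J →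
  Quadrics g f A → Iso m g A x ν dν → s₀ ∈ J → g ∣ c₀ ^ 2 * f - s₀ ^ 2 →
  Even (finrank k (Yd (2 * m + 1) (m - 1) (modX A J))) →
  ∃ (E : Type) (_ : Field E) (_ : Algebra k E) (φ : k[X][X] →ₐ[k] E) (s t : E),
    Module.Finite k E ∧ Odd (finrank k E) ∧ φ g = 0 ∧
      s ^ 2 = φ (f * (cx x ⬝ᵥ (A *ᵥ cx x))) ∧ t ^ 2 = φ (c₀ ^ 2 * (cx x ⬝ᵥ (A *ᵥ cx x)))

end Vale.Agent.P287.Odd
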