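import Mathlib

/-!
Parity of the dimensions of the intersections of three Lagrangian subspaces.
-/

namespace Vale.Agent.P287.Odd

open Module

section

variable {k : Type*} [Field k]

/-- A nondegenerate alternating form lives on a space of even dimension. -/
lemma even_of_alt_nondeg (h2 : (2 : k) ≠ 0) {W : Type*} [AddCommGroup W] [Module k W]
    [FiniteDimensional k W] (ω : W →ₗ[k] W →ₗ[k] k) (halt : ∀ x, ω x x = 0)
    (hnd : ∀ x, (∀ y, ω x y = 0) → x = 0) : Even (finrank k W) := by
  classical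
  by_contra hodd
  rw [Nat.not_even_iff_odd] at hodd
  set b := Module.finBasis k W with hb
  set M : Matrix (Fin (finrank k W)) (Fin (finrank k W)) k := Matrix.of fun i j => ω (b i) (b j)
    with hM
  have hskew : ∀ x y, ω x y = - ω y x := by
    intro x y
    have h1 := halt (x + y)
    simp only [map_add, LinearMap.add_apply, halt, zero_add, add_zero] at h1
    rw [eq_neg_iff_add_eq_zero, add_comm]
    exact h1
  have hT : M.transpose = -M := by
    ext i j
    rw [Matrix.transpose_apply, Matrix.neg_apply, hM, Matrix.of_apply, Matrix.of_apply]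
    exact hskew _ _
  have hdet : M.det = 0 := by
    have h1 : M.det = - M.det := by
      conv_lhs => rw [← Matrix.det_transpose, hT, Matrix.det_neg, Fintype.card_fin]
      rw [hodd.neg_one_pow, neg_one_mul]
    have h3 : (2 : k) * M.det = 0 := by
      rw [two_mul]
      nth_rewrite 1 [h1]
      exact neg_add_cancel _
    exact (mul_eq_zero.mp h3).resolve_left h2
  obtain ⟨v, hv, hv0⟩ := Matrix.exists_vecMul_eq_zero_iff.mpr hdet
  apply hv
  have h4 : (∑ i, v i • b i) = 0 := by
    apply hnd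
    intro y
    have h5 : ∀ j, ω (∑ i, v i • b i) (b j) = 0 := by
      intro j
      have h6 := congrFun hv0 j
      rw [map_sum, LinearMap.sum_apply]
      simp only [map_smul, LinearMap.smul_apply, smul_eq_mul]
      exact h6
    have h7 : ω (∑ i, v i • b i) = 0 := b.ext fun j => by rw [h5, LinearMap.zero_apply]
    rw [h7, LinearMap.zero_apply]
  funext i
  exact (linearIndependent_iff'.mp b.linearIndependent) Finset.univ v (by simpa using h4) i
    (Finset.mem_univ i)

/-- The rank of an alternating form is even. -/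
lemma even_of_alt (h2 : (2 : k) ≠ 0) {W : Type*} [AddCommGroup W] [Module k W]
    [FiniteDimensional k W] (ω : W →ₗ[k] W →ₗ[k] k) (halt : ∀ x, ω x x = 0) :
    Even (finrank k W + finrank k (LinearMap.ker ω)) := by
  obtain ⟨Q, hQ⟩ := (LinearMap.ker ω).exists_isCompl
  have hskew : ∀ x y, ω x y = - ω y x := by
    intro x y
    have h1 := halt (x + y)
    simp only [map_add, LinearMap.add_apply, halt, zero_add, add_zero] at h1
    rw [eq_neg_iff_add_eq_zero, add_comm]
    exact h1
  have h1 : Even (finrank k Q) := by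
    refine even_of_alt_nondeg h2 ((ω.domRestrict Q).compl₂ Q.subtype) (fun x => halt x) ?_
    intro x hx
    have h3 : (x : W) ∈ LinearMap.ker ω := by
      rw [LinearMap.mem_ker]
      ext y
      have hy : y ∈ LinearMap.ker ω ⊔ Q := by rw [hQ.sup_eq_top]; trivial
      obtain ⟨r, hr, q, hq, rfl⟩ := Submodule.mem_sup.mp hy
      rw [map_add, LinearMap.zero_apply, hskew, LinearMap.mem_ker.mp hr, LinearMap.zero_apply,
        neg_zero, zero_add]
      exact hx ⟨q, hq⟩
    have h4 : (x : W) ∈ LinearMap.ker ω ⊓ Q := ⟨h3, x.2⟩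
    rw [hQ.inf_eq_bot, Submodule.mem_bot] at h4
    exact Subtype.ext h4
  have h5 := Submodule.finrank_add_eq_of_isCompl hQ
  obtain ⟨a, ha⟩ := h1
  exact ⟨finrank k (LinearMap.ker ω) + a, by omega⟩

/-- The orthogonal complement of a subspace, for a nondegenerate form. -/
lemma finrank_orth {U : Type*} [AddCommGroup U] [Module k U] [FiniteDimensional k U]
    (β : U →ₗ[k] U →ₗ[k] k) (hnd : ∀ x, (∀ y, β x y = 0) → x = 0) (S T : Submodule k U)
    (hST : ∀ x, x ∈ T ↔ ∀ y ∈ S, β x y = 0) : finrank k S + finrank k T = finrank k U := by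
  set φ : U →ₗ[k] (S →ₗ[k] k) := (LinearMap.lcomp k k S.subtype) ∘ₗ β with hφ
  have hker : LinearMap.ker φ = T := by
    ext x
    rw [LinearMap.mem_ker, hST]
    constructor
    · intro h y hy
      exact LinearMap.congr_fun h ⟨y, hy⟩
    · intro h
      ext y
      exact h y y.2
  have hβ : Function.Bijective β := by
    have h1 : Function.Injective β := by
      refine (injective_iff_map_eq_zero _).mpr fun x hx => hnd x fun y => ?_
      rw [hx, LinearMap.zero_apply]
    refine ⟨h1, ?_⟩
    refine (LinearMap.injective_iff_surjective_of_finrank_eq_finrank ?_).mp h1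
    exact (Subspace.dual_finrank_eq (K := k) (V := U)).symm
  have hsurj : Function.Surjective φ := by
    intro ψ
    obtain ⟨ψ', hψ'⟩ := LinearMap.exists_extend ψ
    obtain ⟨x, hx⟩ := hβ.2 ψ'
    refine ⟨x, ?_⟩
    rw [hφ, LinearMap.comp_apply, hx]
    exact hψ'
  have h3 := φ.finrank_range_add_finrank_ker
  rw [hker, LinearMap.range_eq_top.mpr hsurj, finrank_top] at h3
  have h4 : finrank k (S →ₗ[k] k) = finrank k S := Subspace.dual_finrank_eq (K := k) (V := S)
  omega

theorem lagrangian_triple (h2 : (2 : k) ≠ 0) {U : Type*} [AddCommGroup U] [Module k U]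
    [FiniteDimensional k U] (β : U →ₗ[k] U →ₗ[k] k) (hs : ∀ x y, β x y = β y x)
    (hnd : ∀ x, (∀ y, β x y = 0) → x = 0) (L₁ L₂ L₃ : Submodule k U)
    (h11 : ∀ x ∈ L₁, ∀ y ∈ L₁, β x y = 0) (h22 : ∀ x ∈ L₂, ∀ y ∈ L₂, β x y = 0)
    (h33 : ∀ x ∈ L₃, ∀ y ∈ L₃, β x y = 0) (h1 : 2 * finrank k L₁ = finrank k U)
    (h2' : 2 * finrank k L₂ = finrank k U) (h3 : 2 * finrank k L₃ = finrank k U) :
    Even (finrank k (L₁ ⊓ L₂ : Submodule k U) + finrank k (L₂ ⊓ L₃ : Submodule k U) +
      finrank k (L₁ ⊓ L₃ : Submodule k U) + finrank k L₁) := by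
  classical
  -- Lagrangians are their own orthogonal complement
  have horth : ∀ L : Submodule k U, (∀ x ∈ L, ∀ y ∈ L, β x y = 0) →
      2 * finrank k L = finrank k U → ∀ x, (∀ y ∈ L, β x y = 0) → x ∈ L := by
    intro L hL hd x hx
    set T : Submodule k U :=
      { carrier := {x | ∀ y ∈ L, β x y = 0}
        add_mem' := fun {a b} ha hb y hy => by
          rw [map_add, LinearMap.add_apply, ha y hy, hb y hy, add_zero]
        zero_mem' := fun y _ => by rw [map_zero, LinearMap.zero_apply]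
        smul_mem' := fun c a ha y hy => by
          rw [map_smul, LinearMap.smul_apply, ha y hy, smul_zero] } with hT
    have h4 := finrank_orth β hnd L T (fun x => Iff.rfl)
    have h5 : L ≤ T := fun x hx y hy => hL x hx y hy
    have h6 : L = T := Submodule.eq_of_le_of_finrank_eq h5 (by omega)
    rw [h6]
    exact hx
  have o1 := horth L₁ h11 h1
  have o2 := horth L₂ h22 h2'
  have o3 := horth L₃ h33 h3
  -- the section
  set σ : (L₁ × L₂) →ₗ[k] (L₁ ⊔ L₂ : Submodule k U) :=
    LinearMap.codRestrict _ ((L₁.subtype).coprod (L₂.subtype)) (fun x => by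
      rw [LinearMap.coprod_apply]
      exact Submodule.add_mem_sup x.1.2 x.2.2) with hσ
  have hσs : Function.Surjective σ := by
    rintro ⟨x, hx⟩
    obtain ⟨a, ha, b, hb, rfl⟩ := Submodule.mem_sup.mp hx
    exact ⟨(⟨a, ha⟩, ⟨b, hb⟩), Subtype.ext rfl⟩
  obtain ⟨s, hs'⟩ := σ.exists_rightInverse_of_surjective (LinearMap.range_eq_top.mpr hσs)
  have hdec : ∀ x : (L₁ ⊔ L₂ : Submodule k U), (x : U) = ((s x).1 : U) + ((s x).2 : U) := by
    intro x
    have := LinearMap.congr_fun hs' x
    exact (congrArg Subtype.val this).symm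
  set P : Submodule k U := L₃ ⊓ (L₁ ⊔ L₂) with hP
  set ι : P →ₗ[k] (L₁ ⊔ L₂ : Submodule k U) := Submodule.inclusion inf_le_right with hι
  set pr : P →ₗ[k] U := L₁.subtype ∘ₗ (LinearMap.fst k L₁ L₂) ∘ₗ s ∘ₗ ι with hpr
  have hpr1 : ∀ x : P, pr x ∈ L₁ := fun x => (s (ι x)).1.2
  have hpr2 : ∀ x : P, (x : U) - pr x ∈ L₂ := by
    intro x
    have h4 := hdec (ι x)
    have h5 : (x : U) - pr x = ((s (ι x)).2 : U) := by
      change (x : U) - ((s (ι x)).1 : U) = _
      have h6 : ((ι x : (L₁ ⊔ L₂ : Submodule k U)) : U) = (x : U) := rfl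
      rw [← h6, h4]
      abel
    rw [h5]
    exact (s (ι x)).2.2
  set ω : P →ₗ[k] P →ₗ[k] k := (LinearMap.lcomp k k P.subtype) ∘ₗ β ∘ₗ pr with hω
  have hωa : ∀ x y : P, ω x y = β (pr x) y := fun x y => rfl
  have halt : ∀ x, ω x x = 0 := by
    intro x
    rw [hωa]
    have e1 : β (x : U) x = 0 := h33 x x.2.1 x x.2.1
    set a := pr x with ha
    set b := (x : U) - a with hb
    have hx : (x : U) = a + b := by rw [hb]; abel
    have e2 : β a a = 0 := h11 a (hpr1 x) a (hpr1 x)
    have e3 : β b b = 0 := h22 b (hpr2 x) b (hpr2 x)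
    rw [hx] at e1
    simp only [map_add, LinearMap.add_apply, e2, e3, hs b a, zero_add, add_zero] at e1
    rw [hx, map_add, e2, zero_add]
    have e4 : (2 : k) * β a b = 0 := by
      rw [two_mul]
      exact e1
    exact (mul_eq_zero.mp e4).resolve_left h2
  have hev := even_of_alt h2 ω halt
  -- the kernel
  have hK : (LinearMap.ker ω).map P.subtype = (L₃ ⊓ L₁) ⊔ (L₃ ⊓ L₂) := by
    ext x
    constructor
    · rintro ⟨y, hy, rfl⟩
      have hy' : ∀ z : P, β (pr y) z = 0 := fun z => by
        have := LinearMap.congr_fun (LinearMap.mem_ker.mp hy) z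
        exact this
      -- pr y is orthogonal to P hence in L3 + (L1 ∩ L2)
      have h5 : pr y ∈ L₃ ⊔ (L₁ ⊓ L₂) := by
        by_contra hcon
        obtain ⟨ψ, hψ1, hψ2⟩ := Submodule.exists_le_ker_of_notMem hcon
        have hβs : Function.Surjective β := by
          have hi : Function.Injective β := by
            refine (injective_iff_map_eq_zero _).mpr fun x hx => hnd x fun y => ?_
            rw [hx, LinearMap.zero_apply]
          refine (LinearMap.injective_iff_surjective_of_finrank_eq_finrank ?_).mp hi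
          exact (Subspace.dual_finrank_eq (K := k) (V := U)).symm
        obtain ⟨z, rfl⟩ := hβs ψ
        have hz3 : z ∈ L₃ := o3 z fun y hy =>
          LinearMap.mem_ker.mp (hψ2 (Submodule.mem_sup_left hy))
        have hz12 : z ∈ L₁ ⊔ L₂ := by
          -- z is orthogonal to L1 ∩ L2
          set T : Submodule k U :=
            { carrier := {x | ∀ y ∈ (L₁ ⊓ L₂ : Submodule k U), β x y = 0}
              add_mem' := fun {a b} ha hb y hy => by
                rw [map_add, LinearMap.add_apply, ha y hy, hb y hy, add_zero]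
              zero_mem' := fun y _ => by rw [map_zero, LinearMap.zero_apply]
              smul_mem' := fun c a ha y hy => by
                rw [map_smul, LinearMap.smul_apply, ha y hy, smul_zero] } with hT
          have h6 := finrank_orth β hnd (L₁ ⊓ L₂) T (fun x => Iff.rfl)
          have h7 : L₁ ⊔ L₂ ≤ T := by
            refine sup_le ?_ ?_
            · intro x hx y hy
              exact h11 x hx y hy.1
            · intro x hx y hy
              exact h22 x hx y hy.2
          have h8 := Submodule.finrank_sup_add_finrank_inf_eq L₁ L₂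
          have h9 : L₁ ⊔ L₂ = T := Submodule.eq_of_le_of_finrank_eq h7 (by omega)
          rw [h9]
          intro y hy
          exact LinearMap.mem_ker.mp (hψ2 (Submodule.mem_sup_right hy))
        exact hψ1 (by rw [hs]; exact hy' ⟨z, hz3, hz12⟩)
      obtain ⟨c, hc, d, hd, hcd⟩ := Submodule.mem_sup.mp h5
      have hc1 : c ∈ L₁ := by
        have : c = pr y - d := by rw [← hcd]; abel
        rw [this]
        exact L₁.sub_mem (hpr1 y) hd.1
      have hy3 : (y : U) ∈ L₃ := y.2.1
      refine Submodule.mem_sup.mpr ⟨c, ⟨hc, hc1⟩, (y : U) - c, ⟨L₃.sub_mem hy3 hc, ?_⟩, ?_⟩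
      · have : (y : U) - c = ((y : U) - pr y) + d := by rw [← hcd]; abel
        rw [this]
        exact L₂.add_mem (hpr2 y) hd.2
      · change c + ((y : U) - c) = (y : U)
        abel
    · intro hx
      obtain ⟨c, hc, d, hd, rfl⟩ := Submodule.mem_sup.mp hx
      have hcP : c ∈ P := ⟨hc.1, Submodule.mem_sup_left hc.2⟩
      have hdP : d ∈ P := ⟨hd.1, Submodule.mem_sup_right hd.2⟩
      refine ⟨⟨c, hcP⟩ + ⟨d, hdP⟩, ?_, rfl⟩
      rw [SetLike.mem_coe, LinearMap.mem_ker]
      ext z
      rw [LinearMap.zero_apply, hωa]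
      set y : P := ⟨c, hcP⟩ + ⟨d, hdP⟩ with hy
      -- pr y - c ∈ L1 ∩ L2
      have h6 : pr y - c ∈ L₁ ⊓ L₂ := by
        refine ⟨L₁.sub_mem (hpr1 y) hc.2, ?_⟩
        have h7 := hpr2 y
        have h8 : (y : U) = c + d := rfl
        rw [h8] at h7
        have h9 : pr y - c = d - (c + d - pr y) := by abel
        rw [h9]
        exact L₂.sub_mem hd.2 h7
      have h7 : β (pr y - c) z = 0 := by
        obtain ⟨z1, hz1, z2, hz2, hz⟩ := Submodule.mem_sup.mp z.2.2
        rw [← hz, map_add, h11 _ h6.1 _ hz1, h22 _ h6.2 _ hz2, add_zero]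
      have h8 : β c z = 0 := h33 c hc.1 z z.2.1
      have h9 : pr y = (pr y - c) + c := by abel
      rw [h9, map_add, LinearMap.add_apply, h7, h8, add_zero]
  have hKd : finrank k (LinearMap.ker ω) =
      finrank k ((L₃ ⊓ L₁) ⊔ (L₃ ⊓ L₂) : Submodule k U) := by
    rw [← hK]
    exact (LinearEquiv.finrank_eq ((P.equivSubtypeMap (LinearMap.ker ω)))).trans rfl
  have d1 := Submodule.finrank_sup_add_finrank_inf_eq (L₃ ⊓ L₁) (L₃ ⊓ L₂)
  have d2 := Submodule.finrank_sup_add_finrank_inf_eq L₁ L₂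
  have d3 := Submodule.finrank_sup_add_finrank_inf_eq L₃ (L₁ ⊔ L₂)
  have d4 : finrank k (L₁ ⊓ L₂ ⊓ L₃ : Submodule k U) +
      finrank k (L₃ ⊔ (L₁ ⊔ L₂) : Submodule k U) = finrank k U := by
    rw [add_comm]
    refine finrank_orth β hnd (L₃ ⊔ (L₁ ⊔ L₂)) (L₁ ⊓ L₂ ⊓ L₃) (fun x => ?_)
    constructor
    · rintro ⟨⟨hx1, hx2⟩, hx3⟩ y hy
      obtain ⟨a, ha, b, hb, rfl⟩ := Submodule.mem_sup.mp hy
      obtain ⟨c, hc, d, hd, rfl⟩ := Submodule.mem_sup.mp hb
      rw [map_add, map_add, h33 x hx3 a ha, h11 x hx1 c hc, h22 x hx2 d hd, add_zero, add_zero]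
    · intro h
      refine ⟨⟨o1 x fun y hy => ?_, o2 x fun y hy => ?_⟩, o3 x fun y hy => ?_⟩
      · exact h y (Submodule.mem_sup_right (Submodule.mem_sup_left hy))
      · exact h y (Submodule.mem_sup_right (Submodule.mem_sup_right hy))
      · exact h y (Submodule.mem_sup_left hy)
  have e1 : (L₃ ⊓ L₁) ⊓ (L₃ ⊓ L₂) = L₁ ⊓ L₂ ⊓ L₃ := by
    ext x
    simp only [Submodule.mem_inf]
    tauto
  have e2 : (L₃ ⊓ L₁ : Submodule k U) = L₁ ⊓ L₃ := inf_comm _ _
  have e3 : (L₃ ⊓ L₂ : Submodule k U) = L₂ ⊓ L₃ := inf_comm _ _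
  rw [e1] at d1
  rw [hKd] at hev
  rw [← hP] at d3
  rw [e2, e3] at d1 hev
  rw [Nat.even_iff] at hev ⊢
  omega

end

end Vale.Agent.P287.Odd
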