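import Vale.Agent.P287.Odd.Spec
import Vale.Agent.P287.Odd.Lagr

/-!
The quadratic form `c² + aᵀ adj(A) a` over a finite dimensional Frobenius algebra `Q`, and its
Lagrangian subspaces.
-/

namespace Vale.Agent.P287.Odd

open Matrix Module

section expand

variable {Q : Type*} [CommRing Q]

lemma cr0 (a b : Fin 3 → Q) : crossProduct a b 0 = a 1 * b 2 - a 2 * b 1 := by
  rw [cross_apply]; rfl

lemma cr1 (a b : Fin 3 → Q) : crossProduct a b 1 = a 2 * b 0 - a 0 * b 2 := by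
  rw [cross_apply]; rfl

lemma cr2 (a b : Fin 3 → Q) : crossProduct a b 2 = a 0 * b 1 - a 1 * b 0 := by
  rw [cross_apply]; rfl

variable (A : Matrix (Fin 3) (Fin 3) Q)

lemma ad00 : A.adjugate 0 0 = A 1 1 * A 2 2 - A 1 2 * A 2 1 := by rw [adjugate_fin_three]; rfl
lemma ad01 : A.adjugate 0 1 = -(A 0 1 * A 2 2) + A 0 2 * A 2 1 := by rw [adjugate_fin_three]; rfl
lemma ad02 : A.adjugate 0 2 = A 0 1 * A 1 2 - A 0 2 * A 1 1 := by rw [adjugate_fin_three]; rfl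
lemma ad10 : A.adjugate 1 0 = -(A 1 0 * A 2 2) + A 1 2 * A 2 0 := by rw [adjugate_fin_three]; rfl
lemma ad11 : A.adjugate 1 1 = A 0 0 * A 2 2 - A 0 2 * A 2 0 := by rw [adjugate_fin_three]; rfl
lemma ad12 : A.adjugate 1 2 = -(A 0 0 * A 1 2) + A 0 2 * A 1 0 := by rw [adjugate_fin_three]; rfl
lemma ad20 : A.adjugate 2 0 = A 1 0 * A 2 1 - A 1 1 * A 2 0 := by rw [adjugate_fin_three]; rfl
lemma ad21 : A.adjugate 2 1 = -(A 0 0 * A 2 1) + A 0 1 * A 2 0 := by rw [adjugate_fin_three]; rfl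
lemma ad22 : A.adjugate 2 2 = A 0 0 * A 1 1 - A 0 1 * A 1 0 := by rw [adjugate_fin_three]; rfl

end expand

section

variable {Q : Type} [CommRing Q]

/-- The polar form of `c² + aᵀ adj(A) a`. -/
def Ph (A : Matrix (Fin 3) (Fin 3) Q) (v w : Fin 4 → Q) : Q :=
  v 0 * w 0 + av v ⬝ᵥ (A.adjugate *ᵥ av w)

lemma Ph_add_left (A : Matrix (Fin 3) (Fin 3) Q) (v v' w : Fin 4 → Q) :
    Ph A (v + v') w = Ph A v w + Ph A v' w := by
  simp only [Ph, av_add, add_dotProduct, Pi.add_apply]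
  ring

lemma Ph_add_right (A : Matrix (Fin 3) (Fin 3) Q) (v w w' : Fin 4 → Q) :
    Ph A v (w + w') = Ph A v w + Ph A v w' := by
  simp only [Ph, av_add, mulVec_add, dotProduct_add, Pi.add_apply]
  ring

lemma Ph_smul_left (A : Matrix (Fin 3) (Fin 3) Q) (c : Q) (v w : Fin 4 → Q) :
    Ph A (c • v) w = c * Ph A v w := by
  simp only [Ph, av_smul, smul_dotProduct, Pi.smul_apply, smul_eq_mul]
  ring

lemma Ph_smul_right (A : Matrix (Fin 3) (Fin 3) Q) (c : Q) (v w : Fin 4 → Q) :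
    Ph A v (c • w) = c * Ph A v w := by
  simp only [Ph, av_smul, mulVec_smul, dotProduct_smul, Pi.smul_apply, smul_eq_mul]
  ring

lemma Ph_symm {A : Matrix (Fin 3) (Fin 3) Q} (hA : A.IsSymm) (v w : Fin 4 → Q) :
    Ph A v w = Ph A w v := by
  have h1 : A.adjugate.IsSymm := hA.adjugate
  have h2 : av v ⬝ᵥ (A.adjugate *ᵥ av w) = av w ⬝ᵥ (A.adjugate *ᵥ av v) := by
    rw [dotProduct_mulVec, ← mulVec_transpose, h1.eq, dotProduct_comm]
  rw [Ph, Ph, h2, mul_comm]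

omit [CommRing Q] in
lemma symm_expand {A : Matrix (Fin 3) (Fin 3) Q} (hA : A.IsSymm) :
    A 1 0 = A 0 1 ∧ A 2 0 = A 0 2 ∧ A 2 1 = A 1 2 :=
  ⟨hA.apply 0 1, hA.apply 0 2, hA.apply 1 2⟩

lemma Ph_param {A : Matrix (Fin 3) (Fin 3) Q} (hA : A.IsSymm) (ν y y' : Fin 3 → Q) :
    (y ⬝ᵥ (A *ᵥ ν)) * (y' ⬝ᵥ (A *ᵥ ν)) +
      crossProduct ν y ⬝ᵥ (A.adjugate *ᵥ crossProduct ν y') =
      (ν ⬝ᵥ (A *ᵥ ν)) * (y ⬝ᵥ (A *ᵥ y')) := by
  obtain ⟨h1, h2, h3⟩ := symm_expand hA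
  simp only [mulVec, dotProduct, Fin.sum_univ_three, cr0, cr1, cr2, ad00, ad01, ad02, ad10, ad11,
    ad12, ad20, ad21, ad22, h1, h2, h3]
  ring

lemma cross_param (ν z a : Fin 3 → Q) (hz : z ⬝ᵥ ν = 1) (ha : a ⬝ᵥ ν = 0) :
    a = crossProduct ν (-crossProduct z a) := by
  simp only [dotProduct, Fin.sum_univ_three] at hz ha
  funext i
  fin_cases i
  · change a 0 = crossProduct ν (-crossProduct z a) 0
    simp only [cr0, cr1, cr2, Pi.neg_apply]
    linear_combination (-a 0) * hz + z 0 * ha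
  · change a 1 = crossProduct ν (-crossProduct z a) 1
    simp only [cr0, cr1, cr2, Pi.neg_apply]
    linear_combination (-a 1) * hz + z 1 * ha
  · change a 2 = crossProduct ν (-crossProduct z a) 2
    simp only [cr0, cr1, cr2, Pi.neg_apply]
    linear_combination (-a 2) * hz + z 2 * ha

lemma triple (z a l : Fin 3 → Q) :
    z ⬝ᵥ crossProduct a l = crossProduct z a ⬝ᵥ l := by
  simp only [dotProduct, Fin.sum_univ_three, cr0, cr1, cr2]
  ring

/-- The equations of the isotropic module. -/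
def InM (A : Matrix (Fin 3) (Fin 3) Q) (ν : Fin 3 → Q) (v : Fin 4 → Q) : Prop :=
  av v ⬝ᵥ ν = 0 ∧ crossProduct (av v) (A *ᵥ ν) = v 0 • ν

lemma InM_c {A : Matrix (Fin 3) (Fin 3) Q} {ν z : Fin 3 → Q} {v : Fin 4 → Q}
    (hz : z ⬝ᵥ ν = 1) (hv : InM A ν v) : v 0 = crossProduct z (av v) ⬝ᵥ (A *ᵥ ν) := by
  rw [← triple, hv.2, dotProduct_smul, hz, smul_eq_mul, mul_one]

lemma Ph_eq_zero {A : Matrix (Fin 3) (Fin 3) Q} (hA : A.IsSymm) {ν z : Fin 3 → Q}
    (hz : z ⬝ᵥ ν = 1) (hν : ν ⬝ᵥ (A *ᵥ ν) = 0) {v w : Fin 4 → Q} (hv : InM A ν v)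
    (hw : InM A ν w) : Ph A v w = 0 := by
  have h1 := Ph_param hA ν (-crossProduct z (av v)) (-crossProduct z (av w))
  rw [← cross_param ν z _ hz hv.1, ← cross_param ν z _ hz hw.1, hν, zero_mul, neg_dotProduct,
    neg_dotProduct, ← InM_c hz hv, ← InM_c hz hw, neg_mul_neg] at h1
  exact h1

/-- Every `a` with `a ν = 0` extends uniquely. -/
lemma InM_cons {A : Matrix (Fin 3) (Fin 3) Q} {ν z a : Fin 3 → Q}
    (hz : z ⬝ᵥ ν = 1) (hν : ν ⬝ᵥ (A *ᵥ ν) = 0) (ha : a ⬝ᵥ ν = 0) :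
    InM A ν (Fin.cons (z ⬝ᵥ crossProduct a (A *ᵥ ν)) a) := by
  have h0 : av (Fin.cons (z ⬝ᵥ crossProduct a (A *ᵥ ν)) a : Fin 4 → Q) = a := by
    funext j
    rfl
  refine ⟨by rw [h0]; exact ha, ?_⟩
  rw [h0]
  change _ = (z ⬝ᵥ crossProduct a (A *ᵥ ν)) • ν
  generalize A *ᵥ ν = l at hν
  simp only [dotProduct, Fin.sum_univ_three] at hz ha hν
  funext i
  fin_cases i
  · change crossProduct a l 0 = (z ⬝ᵥ crossProduct a l) • ν 0
    simp only [dotProduct, Fin.sum_univ_three, cr0, cr1, cr2, smul_eq_mul]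
    linear_combination (z 1 * l 2 - z 2 * l 1) * ha - (z 1 * a 2 - z 2 * a 1) * hν -
      (a 1 * l 2 - a 2 * l 1) * hz
  · change crossProduct a l 1 = (z ⬝ᵥ crossProduct a l) • ν 1
    simp only [dotProduct, Fin.sum_univ_three, cr0, cr1, cr2, smul_eq_mul]
    linear_combination (z 2 * l 0 - z 0 * l 2) * ha - (z 2 * a 0 - z 0 * a 2) * hν -
      (a 2 * l 0 - a 0 * l 2) * hz
  · change crossProduct a l 2 = (z ⬝ᵥ crossProduct a l) • ν 2
    simp only [dotProduct, Fin.sum_univ_three, cr0, cr1, cr2, smul_eq_mul]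
    linear_combination (z 0 * l 1 - z 1 * l 0) * ha - (z 0 * a 1 - z 1 * a 0) * hν -
      (a 0 * l 1 - a 1 * l 0) * hz

end

section field

variable {k : Type} [Field k] {Q : Type} [CommRing Q] [Algebra k Q]

/-- The scalar form. -/
noncomputable def bet (lam : Q →ₗ[k] k) (f' : Q) (A : Matrix (Fin 3) (Fin 3) Q) :
    (Fin 4 → Q) →ₗ[k] (Fin 4 → Q) →ₗ[k] k :=
  LinearMap.mk₂ k (fun v w => lam (f' * Ph A v w))
    (fun v v' w => by rw [Ph_add_left, mul_add, map_add])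
    (fun c v w => by
      rw [← algebraMap_smul Q c v, Ph_smul_left, mul_left_comm, ← Algebra.smul_def,
        map_smul, smul_eq_mul])
    (fun v w w' => by rw [Ph_add_right, mul_add, map_add])
    (fun c v w => by
      rw [← algebraMap_smul Q c w, Ph_smul_right, mul_left_comm, ← Algebra.smul_def,
        map_smul, smul_eq_mul])

lemma bet_apply (lam : Q →ₗ[k] k) (f' : Q) (A : Matrix (Fin 3) (Fin 3) Q) (v w : Fin 4 → Q) :
    bet lam f' A v w = lam (f' * Ph A v w) := rfl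

lemma bet_symm (lam : Q →ₗ[k] k) (f' : Q) {A : Matrix (Fin 3) (Fin 3) Q} (hA : A.IsSymm)
    (v w : Fin 4 → Q) : bet lam f' A v w = bet lam f' A w v := by
  rw [bet_apply, bet_apply, Ph_symm hA]

lemma bet_nondeg (lam : Q →ₗ[k] k) (hlam : ∀ u, (∀ r, lam (r * u) = 0) → u = 0) {f f' : Q}
    (hf : f * f' = 1) {A : Matrix (Fin 3) (Fin 3) Q} (hdet : A.det = -f) (v : Fin 4 → Q)
    (hv : ∀ w, bet lam f' A v w = 0) : v = 0 := by
  have h0 : ∀ w, Ph A v w = 0 := by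
    intro w
    have h1 : f' * Ph A v w = 0 := by
      refine hlam _ fun r => ?_
      have h2 := hv (r • w)
      rw [bet_apply, Ph_smul_right, mul_left_comm] at h2
      exact h2
    calc Ph A v w = f * f' * Ph A v w := by rw [hf, one_mul]
      _ = 0 := by rw [mul_assoc, h1, mul_zero]
  have hc : v 0 = 0 := by
    have h1 := h0 (Fin.cons 1 0)
    have h2 : av (Fin.cons 1 0 : Fin 4 → Q) = 0 := by
      funext j
      rfl
    rw [Ph, h2, mulVec_zero, dotProduct_zero, add_zero] at h1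
    have h3 : (Fin.cons 1 0 : Fin 4 → Q) 0 = 1 := rfl
    rw [h3, mul_one] at h1
    exact h1
  have ha : ∀ z : Fin 3 → Q, av v ⬝ᵥ z = 0 := by
    intro z
    have h1 := h0 (Fin.cons 0 (A *ᵥ z))
    have h2 : av (Fin.cons 0 (A *ᵥ z) : Fin 4 → Q) = A *ᵥ z := by
      funext j
      rfl
    rw [Ph, h2, hc, zero_mul, zero_add, mulVec_mulVec, adjugate_mul, smul_mulVec, one_mulVec,
      hdet, dotProduct_smul, smul_eq_mul] at h1
    calc av v ⬝ᵥ z = f' * f * (av v ⬝ᵥ z) := by rw [mul_comm f', hf, one_mul]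
      _ = 0 := by rw [mul_assoc]; linear_combination (-f') * h1
  funext i
  refine Fin.cases hc (fun j => ?_) i
  have h1 := ha (Pi.single j 1)
  rw [dotProduct_single_one] at h1
  exact h1

end field

end Vale.Agent.P287.Odd
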